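import Vale.Agent.P092.H790.Ind

/-!
P092 (helper85): a lattice `Λ` in a second countable locally compact group `E` gives a cocycle
datum on which the whole group `E` acts; tightness of the cocycle on compact sets.
-/

set_option linter.all false

open Set Filter Topology MeasureTheory

namespace Vale.Agent.P092.H85

open Vale.Agent.P092.H790

section main

variable {E : Type} [Group E] [TopologicalSpace E] [IsTopologicalGroup E] [LocallyCompactSpace E]
  [SecondCountableTopology E] [T2Space E] [MeasurableSpace E] [BorelSpace E]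

/-- A Borel section of `E → E ⧸ Λ`, bounded on compact sets. -/
noncomputable def sec (Λ : Subgroup E) [DiscreteTopology Λ] [MeasurableSpace (E ⧸ Λ)]
    [BorelSpace (E ⧸ Λ)] : E ⧸ Λ → E := (exists_section Λ).choose

variable (Λ : Subgroup E) [DiscreteTopology Λ] [MeasurableSpace (E ⧸ Λ)] [BorelSpace (E ⧸ Λ)]

theorem sec_meas : Measurable (sec Λ) := (exists_section Λ).choose_spec.1

theorem sec_coe (x : E ⧸ Λ) : ((sec Λ x : E) : E ⧸ Λ) = x := (exists_section Λ).choose_spec.2.1 x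

theorem sec_bdd (K : Set (E ⧸ Λ)) (hK : IsCompact K) :
    ∃ C : Set E, IsCompact C ∧ ∀ x ∈ K, sec Λ x ∈ C := (exists_section Λ).choose_spec.2.2 K hK

theorem coc_mem (g : E) (x : E ⧸ Λ) : (sec Λ (g • x))⁻¹ * g * sec Λ x ∈ Λ := by
  rw [mul_assoc]
  refine QuotientGroup.eq.1 ?_
  rw [sec_coe]
  conv_lhs => rw [← sec_coe Λ x]
  rfl

/-- The cocycle `c(g, x) = s(g x)⁻¹ g s(x)`. -/
noncomputable def coc (g : E) (x : E ⧸ Λ) : Λ := ⟨(sec Λ (g • x))⁻¹ * g * sec Λ x, coc_mem Λ g x⟩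

theorem coc_coe (g : E) (x : E ⧸ Λ) : (coc Λ g x : E) = (sec Λ (g • x))⁻¹ * g * sec Λ x := rfl

/-- `s(g x) c(g, x) = g s(x)`. -/
theorem sec_mul_coc (g : E) (x : E ⧸ Λ) : sec Λ (g • x) * (coc Λ g x : E) = g * sec Λ x := by
  rw [coc_coe]
  group

theorem coc_mul (g h : E) (x : E ⧸ Λ) : coc Λ (g * h) x = coc Λ g (h • x) * coc Λ h x := by
  apply Subtype.ext
  simp only [Subgroup.coe_mul, coc_coe, mul_smul]
  group

theorem smul_meas (g : E) : Measurable fun x : E ⧸ Λ => g • x := (continuous_const_smul g).measurable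

theorem coc_meas (g : E) (v : Λ) : MeasurableSet {x | coc Λ g x = v} := by
  have e : {x : E ⧸ Λ | coc Λ g x = v} =
      (fun x : E ⧸ Λ => (sec Λ (g • x))⁻¹ * g * sec Λ x) ⁻¹' {(v : E)} := by
    ext x
    simp [Subtype.ext_iff, coc_coe]
  rw [e]
  have hcm : Measurable fun x : E ⧸ Λ => (sec Λ (g • x))⁻¹ * g * sec Λ x :=
    ((((sec_meas Λ).comp (smul_meas Λ g)).inv.mul_const g).mul (sec_meas Λ))
  exact hcm (measurableSet_singleton _)

variable {Λ}

/-- The cocycle datum of a lattice, with the action of the whole group. -/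
noncomputable def cdat (ν : Measure (E ⧸ Λ)) [IsProbabilityMeasure ν]
    (hν : ∀ g : E, ν.map (fun x => g • x) = ν) : CData E Λ where
  X := E ⧸ Λ
  μ := ν
  act g x := g • x
  act_one x := one_smul _ x
  act_mul g h x := mul_smul g h x
  mp g := ⟨smul_meas Λ g, hν g⟩
  c := coc Λ
  c_meas := coc_meas Λ
  c_mul := coc_mul Λ

/-- The equivariant map `ϑ(x, v) = s(x) v⁻¹` from `X × Λ` to `E`. -/
noncomputable def thet (x : E ⧸ Λ) (v : Λ) : E := sec Λ x * (v : E)⁻¹

theorem thet_eq (g : E) (x : E ⧸ Λ) (v : Λ) :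
    thet (g • x) (v * (coc Λ g x)⁻¹) = g * thet x v := by
  rw [thet, thet, Subgroup.coe_mul, Subgroup.coe_inv, coc_coe]
  group

/-- `ϑ(g x, w) = g ϑ(x, w c(g, x))`. -/
theorem thet_act (g : E) (x : E ⧸ Λ) (w : Λ) :
    thet (g • x) w = g * thet x (w * coc Λ g x) := by
  rw [← thet_eq, mul_inv_cancel_right]

theorem thet_mul (x : E ⧸ Λ) (v w : Λ) : thet x (v * w) = thet x w * (v : E)⁻¹ := by
  rw [thet, thet, Subgroup.coe_mul]
  group

theorem thet_meas (v : Λ) : Measurable fun x : E ⧸ Λ => thet x v := (sec_meas Λ).mul_const _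

variable (Λ) in
theorem exists_compact_large (ν : Measure (E ⧸ Λ)) [IsProbabilityMeasure ν] {ε : ℝ} (hε : 0 < ε) :
    ∃ K : Set (E ⧸ Λ), IsCompact K ∧ MeasurableSet K ∧ ν.real Kᶜ ≤ ε := by
  obtain ⟨P, hP⟩ : ∃ P : ℕ → Set (E ⧸ Λ), P = fun n =>
    ((↑) : E → E ⧸ Λ) '' interior (CompactExhaustion.choice E n) := ⟨_, rfl⟩
  have hPo : ∀ n, IsOpen (P n) := fun n => by
    rw [hP]; exact QuotientGroup.isOpenMap_coe _ isOpen_interior
  have hPm : Monotone P := by
    rw [hP]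
    refine monotone_nat_of_le_succ fun n => image_mono (interior_mono ?_)
    exact (CompactExhaustion.choice E).subset_succ n
  have hPu : ⋃ n, P n = univ := by
    refine eq_univ_of_forall fun x => ?_
    obtain ⟨e, rfl⟩ := QuotientGroup.mk_surjective x
    obtain ⟨n, hn⟩ := mem_iUnion.1 ((CompactExhaustion.choice E).iUnion_eq ▸ mem_univ e :
      e ∈ ⋃ n, CompactExhaustion.choice E n)
    refine mem_iUnion.2 ⟨n + 1, ?_⟩
    rw [hP]
    exact ⟨e, (CompactExhaustion.choice E).subset_interior_succ n hn, rfl⟩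
  have hlim : Tendsto (fun n => ν.real (P n)ᶜ) atTop (𝓝 0) := by
    have h1 : Tendsto (fun n => ν.real (P n)) atTop (𝓝 1) := by
      have h2 := tendsto_measure_iUnion_atTop (μ := ν) hPm
      rw [hPu, measure_univ] at h2
      have h3 := (ENNReal.tendsto_toReal ENNReal.one_ne_top).comp h2
      simpa [Function.comp_def, Measure.real] using h3
    have h4 : ∀ n, ν.real (P n)ᶜ = 1 - ν.real (P n) := fun n =>
      probReal_compl_eq_one_sub (hPo n).measurableSet
    simp_rw [h4]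
    simpa using h1.const_sub 1
  obtain ⟨n, hn⟩ := (hlim.eventually (gt_mem_nhds hε)).exists
  have hKc : IsCompact (((↑) : E → E ⧸ Λ) '' (CompactExhaustion.choice E n)) :=
    ((CompactExhaustion.choice E).isCompact n).image continuous_quotient_mk'
  have hcl : IsClosed (Λ : Set E) := Subgroup.isClosed_of_discrete
  have hPK : P n ⊆ ((↑) : E → E ⧸ Λ) '' (CompactExhaustion.choice E n) := by
    rw [hP]; exact image_mono interior_subset
  have hKm : MeasurableSet (((↑) : E → E ⧸ Λ) '' (CompactExhaustion.choice E n)) :=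
    hKc.isClosed.measurableSet
  refine ⟨_, hKc, hKm, le_trans (measureReal_mono (compl_subset_compl.2 hPK)) hn.le⟩

/-- **Tightness of the cocycle on compact sets.** -/
theorem coc_tight (ν : Measure (E ⧸ Λ)) [IsProbabilityMeasure ν]
    (hν : ∀ g : E, ν.map (fun x => g • x) = ν) {𝒦 : Set E} (h𝒦 : IsCompact 𝒦) {ε : ℝ}
    (hε : 0 < ε) : ∃ F : Finset Λ, ∀ κ ∈ 𝒦, ν.real {x | coc Λ κ x ∉ F} ≤ ε := by
  classical
  obtain ⟨K, hK, hKm, hKν⟩ := exists_compact_large Λ ν (half_pos hε)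
  obtain ⟨C, hC, hσC⟩ := sec_bdd Λ K hK
  have hQ : IsCompact ((fun p : E × E × E => p.1⁻¹ * p.2.1 * p.2.2) '' (C ×ˢ 𝒦 ×ˢ C)) :=
    (hC.prod (h𝒦.prod hC)).image (by fun_prop)
  have hfin := finite_inter Λ hQ
  refine ⟨hfin.toFinset, fun κ hκ => ?_⟩
  have hsub : {x | coc Λ κ x ∉ hfin.toFinset} ⊆ Kᶜ ∪ (fun x : E ⧸ Λ => κ • x) ⁻¹' Kᶜ := by
    intro x hx
    by_contra hcon
    simp only [mem_union, mem_compl_iff, mem_preimage, not_or, not_not] at hcon
    refine hx ?_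
    rw [Set.Finite.mem_toFinset]
    exact ⟨(sec Λ (κ • x), κ, sec Λ x), ⟨hσC _ hcon.2, hκ, hσC _ hcon.1⟩, rfl⟩
  have hpre : ν.real ((fun x : E ⧸ Λ => κ • x) ⁻¹' Kᶜ) = ν.real Kᶜ := by
    rw [← map_measureReal_apply (smul_meas Λ κ) hKm.compl, hν]
  calc ν.real {x | coc Λ κ x ∉ hfin.toFinset} ≤ ν.real (Kᶜ ∪ (fun x : E ⧸ Λ => κ • x) ⁻¹' Kᶜ) :=
      measureReal_mono hsub
    _ ≤ ν.real Kᶜ + ν.real ((fun x : E ⧸ Λ => κ • x) ⁻¹' Kᶜ) := measureReal_union_le _ _
    _ ≤ ε := by rw [hpre]; linarith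

end main

/-- **The cocycle datum of a lattice**, literal form without instances on `E`. -/
theorem exists_cData {E : Type} [Group E] [TopologicalSpace E] [IsTopologicalGroup E]
    [LocallyCompactSpace E] [SecondCountableTopology E] [T2Space E] (Λ : Subgroup E)
    [DiscreteTopology Λ] [MeasurableSpace (E ⧸ Λ)] [BorelSpace (E ⧸ Λ)] (ν : Measure (E ⧸ Λ))
    [IsProbabilityMeasure ν] (hν : ∀ g : E, ν.map (fun x => g • x) = ν) :
    ∃ (d : CData E Λ) (s : d.X → E),
      (∀ B : Set E, IsOpen B ∨ IsClosed B ∨ @MeasurableSet E (borel E) B →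
        MeasurableSet (s ⁻¹' B)) ∧
      (∀ g x, s (d.act g x) * (d.c g x : E) = g * s x) ∧
      ∀ 𝒦 : Set E, IsCompact 𝒦 → ∀ ε : ℝ, 0 < ε →
        ∃ F : Finset Λ, ∀ κ ∈ 𝒦, d.μ.real {x | d.c κ x ∉ F} ≤ ε := by
  borelize E
  refine ⟨cdat ν hν, sec Λ, fun B hB => ?_, fun g x => sec_mul_coc Λ g x, fun 𝒦 h𝒦 ε hε =>
    coc_tight ν hν h𝒦 hε⟩
  refine sec_meas Λ ?_
  rcases hB with h | h | h
  · exact h.measurableSet
  · exact h.measurableSet
  · exact h

end Vale.Agent.P092.H85
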