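import Vale.Agent.P092.CL.Defs
import Vale.Agent.P092.H684.Psp1
import Vale.Agent.P092.H714.SpM

/-!
P092, [CL-TOP] (helper85), part 2: the quotients `S ⧸ Z` by finite central subgroups `Z` are admissible
sources for the letters `L`, if `S` has the Howe–Moore property; lattices of `S ⧸ Z` as targets.
-/

set_option linter.all false

open Filter Topology MeasureTheory

namespace Vale.Agent.P092.H85.CU

open Vale.Agent.P092.CL
open Vale.Agent.P092.RC (Moore)
open Vale.Agent.P092.H15 (HMG)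
open Vale.Agent.P092.H714.Sp (moore_of_tendsto tendsto_cocompact_of)
open Vale.Agent.P092.H684.Psp (moore_image)

section adm

variable {S P M V₁ V₂ : Type} [Group S] [MeasurableSpace V₁] [MeasurableSpace V₂]
  [TopologicalSpace S] {L : Lt S P M V₁ V₂}

/-- unbounded sets are Moore sets -/
theorem moore_unb [IsTopologicalGroup S] (hm : HMG S) (hc : Continuous L.nm) {T : Set S}
    (hT : ∀ C : ℝ, ∃ g ∈ T, C ≤ L.nm g) : Moore T := by
  choose b hb hC using fun N : ℕ => hT N
  exact moore_of_tendsto hm (l := atTop) (b := b) (tendsto_cocompact_of hc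
    (tendsto_atTop_mono hC tendsto_natCast_atTop_atTop)) (Eventually.of_forall hb)

/-- **Proper central images are admissible.** -/
theorem adm_of [IsTopologicalGroup S] (hm : HMG S) (hc : Continuous L.nm) {E : Type} [Group E]
    [TopologicalSpace E] [IsTopologicalGroup E] (ι : S →* E) (hι : Continuous ι)
    (hs : Function.Surjective ι) (hp : ∀ C : Set E, IsCompact C → IsCompact (ι ⁻¹' C))
    (hk : ∀ g, ι g = 1 → g ∈ L.Z) : Adm L ι where
  tg := inferInstance
  cι := hι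
  sur := hs
  ker := hk
  coc b hb := by
    rw [hasBasis_cocompact.tendsto_right_iff]
    intro C hC
    obtain ⟨M, hM⟩ := ((hp C hC).image hc).bddAbove
    filter_upwards [hb.eventually_gt_atTop M] with n hn hmem
    have h1 : L.nm (b n) ≤ M := hM ⟨_, hmem, rfl⟩
    linarith
  moore T hT := moore_image ι hι hs (moore_unb hm hc hT)

/-- **`S ⧸ Z` is admissible.** -/
theorem adm_quo [IsTopologicalGroup S] (hm : HMG S) (hc : Continuous L.nm) (Z : Subgroup S)
    [Z.Normal] (hf : (Z : Set S).Finite) (hZ : Z ≤ L.Z) : Adm L (QuotientGroup.mk' Z) :=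
  adm_of hm hc _ continuous_quotient_mk' (QuotientGroup.mk'_surjective Z)
    (fun C hC => H793.proper_mk Z hf.isCompact C hC) fun g hg =>
      hZ ((QuotientGroup.eq_one_iff g).1 hg)

/-- `S` itself is admissible. -/
theorem adm_id [IsTopologicalGroup S] (hm : HMG S) (hc : Continuous L.nm) :
    Adm L (MonoidHom.id S) :=
  adm_of hm hc _ continuous_id Function.surjective_id (fun C hC => hC) fun g hg => by
    have hg : g = 1 := hg
    rw [hg]
    exact one_mem _

end adm

/-! ### Targets -/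

section tgt

variable {S P M V₁ V₂ : Type} [Group S] [MeasurableSpace V₁] [MeasurableSpace V₂]
  [TopologicalSpace S] {L : Lt S P M V₁ V₂} {E : Type} [Group E] [TopologicalSpace E]
  {ι : S →* E}

/-- sections are homomorphisms modulo `L.Z` -/
theorem ph_sec (hk : ∀ g, ι g = 1 → g ∈ L.Z) {Γ : Type} [Group Γ] (i : Γ →* E) {q : Γ → S}
    (hq : ∀ γ, ι (q γ) = i γ) : L.PH q := by
  intro γ γ'
  refine ⟨q (γ * γ') * (q γ * q γ')⁻¹, hk _ ?_, by rw [inv_mul_cancel_right]⟩
  rw [map_mul, map_inv, map_mul, hq, hq, hq, map_mul, mul_inv_cancel]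

/-- finiteness -/
theorem fin_sec [IsTopologicalGroup E] [T2Space E] (hι : Continuous ι)
    (hcpt : ∀ C : ℝ, IsCompact {g : S | L.nm g ≤ C}) {Γ : Type} [Group Γ] (i : Γ →* E)
    (hi : Function.Injective i) (hd : DiscreteTopology i.range) {q : Γ → S}
    (hq : ∀ γ, ι (q γ) = i γ) (C : ℝ) : {γ : Γ | L.nm (q γ) ≤ C}.Finite := by
  have h1 : IsCompact (ι '' {g : S | L.nm g ≤ C}) := (hcpt C).image hι
  have h2 := H790.finite_inter i.range h1
  refine Set.Finite.of_finite_image (f := fun γ : Γ => (⟨i γ, γ, rfl⟩ : i.range))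
    (h2.subset ?_) fun γ _ γ' _ e => hi (congrArg Subtype.val e)
  rintro _ ⟨γ, hγ, rfl⟩
  exact ⟨q γ, hγ, hq γ⟩

/-- uniform discreteness -/
theorem ud_sec (hz : ∀ z ∈ L.Z, ∀ g, L.nm (z * g) = L.nm g)
    (hinv : ∀ z ∈ L.Z, ∀ g, z * g = g * z) {Γ : Type} [Group Γ] {q : Γ → S} (hq : L.PH q)
    (hf : ∀ C : ℝ, {γ : Γ | L.nm (q γ) ≤ C}.Finite) : L.UD q := by
  classical
  intro C
  refine ⟨(hf C).toFinset.card, fun T hT => ?_⟩
  rcases T.eq_empty_or_nonempty with rfl | ⟨γ₀, h₀⟩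
  · simp
  · rw [← Finset.card_image_of_injective T (mul_left_injective γ₀⁻¹)]
    refine Finset.card_le_card fun x hx => ?_
    obtain ⟨γ, hγ, rfl⟩ := Finset.mem_image.1 hx
    rw [Set.Finite.mem_toFinset, Set.mem_setOf_eq]
    obtain ⟨z, hz1, h1⟩ := hq (γ * γ₀⁻¹) γ₀
    rw [inv_mul_cancel_right] at h1
    have h2 : q (γ * γ₀⁻¹) = z⁻¹ * (q γ * (q γ₀)⁻¹) := by
      rw [h1]
      group
    show L.nm (q (γ * γ₀⁻¹)) ≤ C
    rw [h2, hz _ (inv_mem hz1)]
    exact hT γ₀ h₀ γ hγ

/-- ICC: a section is faithful modulo `L.Z` -/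
theorem inj_sec (hz : ∀ z ∈ L.Z, ∀ g, z * g = g * z) {Γ : Type} [Group Γ]
    (hicc : ∀ g : Γ, g ≠ 1 → Set.Infinite {y : Γ | ∃ h, y = h * g * h⁻¹}) (i : Γ →* E)
    (hi : Function.Injective i) {q : Γ → S} (hq : ∀ γ, ι (q γ) = i γ) (γ : Γ)
    (h1 : q γ ∈ L.Z) : γ = 1 := by
  by_contra hne
  refine hicc γ hne ?_
  have h2 : {y : Γ | ∃ h, y = h * γ * h⁻¹} ⊆ {γ} := by
    rintro y ⟨x, rfl⟩
    have h3 : x * γ = γ * x := by
      apply hi
      rw [map_mul, map_mul, ← hq γ, ← hq x, ← map_mul, ← map_mul, hz _ h1]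
    rw [Set.mem_singleton_iff, h3, mul_inv_cancel_right]
  exact (Set.finite_singleton γ).subset h2

theorem exists_sec (hs : Function.Surjective ι) {Γ : Type} (i : Γ → E) :
    ∃ q : Γ → S, ∀ γ, ι (q γ) = i γ := by
  choose q hq using fun γ => hs (i γ)
  exact ⟨q, hq⟩

end tgt

end Vale.Agent.P092.H85.CU
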