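import Vale.Agent.P092.H370.Po2
import Vale.Agent.P092.H714.Cl9

/-!
P092, [CL-TOP] (helper85), part 1: the Witt index of `hyp q ε J₀`, `J₀` anisotropic; the normal form
of the data of the class `UN.TypeU`.
-/

set_option linter.all false

open Matrix Module

namespace Vale.Agent.P092.H85.CU

open Vale.Agent.P092.H303 (FormGroup hyp Idx)
open Vale.Agent.P092.H714.Cl
open Vale.Agent.P092.H370.Po (Sing WI exists_extend)

section wi

variable {k : Type} [NontriviallyNormedField k] {ι : Type} [Fintype ι] [DecidableEq ι]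
  {σ : k →+* k} {ε : k} {J₀ : Matrix ι ι k} {q : ℕ}

/-- the span of the first half of the hyperbolic basis -/
def top (k ι : Type) [NontriviallyNormedField k] (q : ℕ) : Submodule k (Idx q ι → k) where
  carrier := {x | (∀ i, x (.inl (.inr i)) = 0) ∧ ∀ j, x (.inr j) = 0}
  zero_mem' := ⟨fun _ => rfl, fun _ => rfl⟩
  add_mem' := by
    rintro x y ⟨h1, h2⟩ ⟨h3, h4⟩
    exact ⟨fun i => by rw [Pi.add_apply, h1, h3, add_zero],
      fun i => by rw [Pi.add_apply, h2, h4, add_zero]⟩
  smul_mem' := by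
    rintro c x ⟨h1, h2⟩
    exact ⟨fun i => by rw [Pi.smul_apply, h1, smul_zero],
      fun i => by rw [Pi.smul_apply, h2, smul_zero]⟩

theorem hf_zero_right' (x : ι → k) : hf σ J₀ x (fun _ => 0) = 0 := hf_zero_right _ _ _

theorem hf_zero_left' (x : ι → k) : hf σ J₀ (fun _ => 0) x = 0 := hf_zero_left _ _ _

theorem sing_top : Sing σ (hyp q ε J₀) (top k ι q) := by
  rintro x ⟨h1, h2⟩ y ⟨h3, h4⟩
  have e1 : (fun i => x (.inr i)) = fun _ : ι => (0 : k) := funext h2
  rw [hf_hyp, e1, hf_zero_left']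
  simp [h1, h3]

/-- coordinates -/
noncomputable def topE (k ι : Type) [NontriviallyNormedField k] (q : ℕ) :
    top k ι q ≃ₗ[k] (Fin q → k) where
  toFun x i := x.1 (.inl (.inl i))
  map_add' x y := rfl
  map_smul' c x := rfl
  invFun a := ⟨fun p => Sum.elim (Sum.elim a fun _ => 0) (fun _ => 0) p,
    fun i => rfl, fun j => rfl⟩
  left_inv := by
    rintro ⟨x, h1, h2⟩
    refine Subtype.ext (funext fun p => ?_)
    rcases p with (i | i) | i
    · rfl
    · exact (h1 i).symm
    · exact (h2 i).symm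
  right_inv a := rfl

theorem finrank_top : finrank k (top k ι q) = q := by
  rw [(topE k ι q).finrank_eq, finrank_fin_fun]

/-- **The Witt index of the sum of `q` hyperbolic planes and an anisotropic form is `q`.** -/
theorem wi_hyp (hF : Frm σ ε (hyp q ε J₀)) (hJ : ∀ v : ι → k, v ≠ 0 → hf σ J₀ v v ≠ 0) :
    WI σ (hyp q ε J₀) q := by
  refine ⟨⟨top k ι q, sing_top, finrank_top⟩, fun Y hY => ?_⟩
  by_contra hcon
  have hlt : finrank k (top k ι q) < finrank k Y := by
    rw [finrank_top]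
    omega
  obtain ⟨v, hv, hvv, hx⟩ := exists_extend hF sing_top hY hlt
  have h1 : ∀ i, v (.inl (.inr i)) = 0 := by
    intro i
    have hm : (Pi.single (.inl (.inl i)) 1 : Idx q ι → k) ∈ top k ι q :=
      ⟨fun j => Pi.single_eq_of_ne (by simp) _, fun j => Pi.single_eq_of_ne (by simp) _⟩
    have h2 := hx _ hm
    have e1 : (fun j => (Pi.single (.inl (.inl i)) (1 : k) : Idx q ι → k) (.inr j)) =
        fun _ => 0 := funext fun j => Pi.single_eq_of_ne (by simp) _
    have e2 : ∀ j : Fin q, (Pi.single (.inl (.inl i)) (1 : k) : Idx q ι → k) (.inl (.inr j)) = 0 :=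
      fun j => Pi.single_eq_of_ne (by simp) _
    have e3 : ∀ j : Fin q, (Pi.single (.inl (.inl i)) (1 : k) : Idx q ι → k) (.inl (.inl j)) =
        if j = i then 1 else 0 := by
      intro j
      by_cases h : j = i
      · subst h; simp
      · rw [if_neg h]; exact Pi.single_eq_of_ne (by simpa using h) _
    rw [hf_hyp, e1, hf_zero_left'] at h2
    simp only [e2, e3, zero_mul, Finset.sum_const_zero, mul_zero, add_zero] at h2
    rw [Finset.sum_eq_single i (fun j _ hj => by simp [hj]) (by simp)] at h2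
    simpa using h2
  have h2 : (fun j => v (.inr j)) = (0 : ι → k) := by
    by_contra hne
    refine hJ _ hne ?_
    rw [hf_hyp] at hvv
    simpa [h1] using hvv
  exact hv ⟨h1, fun j => congrFun h2 j⟩

end wi

/-- The data of the classical groups of the class `TypeU`, `q = s + 2`, in normal form. -/
structure NfD {k : Type} [NontriviallyNormedField k] (σ : k →+* k) (ε : k) {ι : Type} [Fintype ι]
    [DecidableEq ι] (J₀ : Matrix ι ι k) (s : ℕ) : Prop where
  hn : ∀ x, ‖σ x‖ = ‖x‖
  an : ∀ v : ι → k, v ≠ 0 → v ⬝ᵥ (J₀ *ᵥ fun l => σ (v l)) ≠ 0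
  frm : Frm σ ε (hyp (s + 2) ε J₀)
  wi : WI σ (hyp (s + 2) ε J₀) (s + 2)
  gt : FormGroup σ (hyp (s + 2) ε J₀) = GT σ ε (hyp (s + 2) ε J₀)
  ty : (∃ c, σ c ≠ c) ∨ ε = -1 ∧ IsEmpty ι
  two : (2 : k) ≠ 0 ∨ 1 ≤ s

end Vale.Agent.P092.H85.CU
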