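import Vale.Agent.P092.H541.HelDef
import Mathlib.MeasureTheory.Group.FundamentalDomain
import Mathlib.MeasureTheory.Measure.Haar.MulEquivHaarChar
import Mathlib.MeasureTheory.Integral.Bochner.ContinuousLinearMap
import Mathlib.MeasureTheory.Function.SpecialFunctions.Basic
import Mathlib.Topology.Instances.Matrix

/-!
P092 (helper85), team N, [N-GAPB] (#6876 (2)):
* `int_fd`, `KY_mul`: the kernel `KY` does not depend on the coordinates of the frame:
  `KY (A * g) (B * g) = KY A B`;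
* `KY_cont`: `(A, B) ↦ KY A B` is continuous at injective `A, B`.
-/

set_option linter.all false

open MeasureTheory Matrix Set Filter Topology
open scoped ENNReal NNReal Pointwise

namespace Vale.Agent.P092.H85.Ker

open Vale.Agent.P092.H541.Hel

variable {k : Type} [NontriviallyNormedField k] [ProperSpace k] [MeasurableSpace k] [BorelSpace k]
  {ι κ : Type} [Fintype ι] [Fintype κ]

/-- units which scale `μ` by the power `2α` of their norm -/
def scS (μ : Measure (κ → k)) (α : ℝ) : Subgroup kˣ where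
  carrier := {u | ∀ S : Set (κ → k),
    μ ((fun v => u • v) ⁻¹' S) * ENNReal.ofReal (‖(u : k)‖ ^ (2 * α)) = μ S}
  mul_mem' := by
    intro a b ha hb S
    have h1 := ha S
    have h2 := hb ((fun v => a • v) ⁻¹' S)
    have e : (fun v : κ → k => b • v) ⁻¹' ((fun v => a • v) ⁻¹' S) =
        (fun v => (a * b) • v) ⁻¹' S := by
      ext v; simp only [mem_preimage, mul_smul]
    rw [e] at h2
    rw [← h1, ← h2, Units.val_mul, norm_mul, Real.mul_rpow (norm_nonneg _) (norm_nonneg _),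
      ENNReal.ofReal_mul (by positivity), mul_assoc, mul_comm (ENNReal.ofReal (‖(b : k)‖ ^ _))]
  one_mem' := by
    intro S
    simp
  inv_mem' := by
    intro a ha S
    have h1 := ha ((fun v => a⁻¹ • v) ⁻¹' S)
    have e : (fun v : κ → k => a • v) ⁻¹' ((fun v => a⁻¹ • v) ⁻¹' S) = S := by
      ext v; simp only [mem_preimage, inv_smul_smul]
    rw [e] at h1
    have h0 : 0 < ‖(a : k)‖ := norm_pos_iff.2 a.ne_zero
    have h3 : ENNReal.ofReal (‖(a : k)‖ ^ (2 * α)) * ENNReal.ofReal (‖((a⁻¹ : kˣ) : k)‖ ^ (2 * α))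
        = 1 := by
      rw [← ENNReal.ofReal_mul (by positivity), ← Real.mul_rpow (norm_nonneg _) (norm_nonneg _),
        ← norm_mul, ← Units.val_mul]
      simp
    rw [← h1, mul_assoc, h3, mul_one]

/-- the invariant measure `‖v‖^(-2α) dμ` -/
noncomputable def rh (μ : Measure (κ → k)) (α : ℝ) : Measure (κ → k) :=
  μ.withDensity fun v => ENNReal.ofReal (‖v‖ ^ (-(2 * α)))

theorem dens_meas (α : ℝ) :
    Measurable fun v : κ → k => ENNReal.ofReal (‖v‖ ^ (-(2 * α))) :=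
  (measurable_norm.pow_const _).ennreal_ofReal

theorem rh_inv (μ : Measure (κ → k)) (α : ℝ) {u : kˣ} (hu : u ∈ scS μ α) {S : Set (κ → k)}
    (hS : MeasurableSet S) : rh μ α ((fun v => u • v) ⁻¹' S) = rh μ α S := by
  have hm : Measurable fun v : κ → k => u • v := measurable_const_smul u
  have h0 : 0 < ‖(u : k)‖ := norm_pos_iff.2 u.ne_zero
  have hmap : μ = ENNReal.ofReal (‖(u : k)‖ ^ (2 * α)) • μ.map fun v => u • v := by
    ext T hT
    rw [Measure.smul_apply, Measure.map_apply hm hT, smul_eq_mul, mul_comm]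
    exact (hu T).symm
  rw [rh, withDensity_apply _ (hm hS), withDensity_apply _ hS]
  conv_rhs => rw [hmap]
  rw [Measure.restrict_smul, lintegral_smul_measure,
    setLIntegral_map hS (dens_meas α) hm, smul_eq_mul, ← lintegral_const_mul]
  · refine setLIntegral_congr_fun (hm hS) fun v _ => ?_
    change ENNReal.ofReal (‖v‖ ^ (-(2 * α))) = ENNReal.ofReal (‖(u : k)‖ ^ (2 * α)) *
      ENNReal.ofReal (‖u • v‖ ^ (-(2 * α)))
    rw [← ENNReal.ofReal_mul (by positivity), Units.smul_def, norm_smul,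
      Real.mul_rpow (norm_nonneg _) (norm_nonneg _), ← mul_assoc, ← Real.rpow_add h0]
    simp
  · exact (dens_meas α).comp hm

/-- a norm-like function -/
structure Nl (p : (κ → k) → ℝ) : Prop where
  meas : Measurable p
  pos : ∀ v, v ≠ 0 → 0 < p v
  sm : ∀ (c : k) v, p (c • v) = ‖c‖ * p v

theorem Nl.zero {p : (κ → k) → ℝ} (hp : Nl p) : p 0 = 0 := by
  have := hp.sm 0 0
  simpa using this

/-- the shell of `p` -/
def Dp (t : k) (p : (κ → k) → ℝ) : Set (κ → k) := {v | 1 ≤ p v ∧ p v < ‖t‖}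

theorem Dp_meas {t : k} {p : (κ → k) → ℝ} (hp : Nl p) : MeasurableSet (Dp t p) :=
  (measurableSet_le measurable_const hp.meas).inter (measurableSet_lt hp.meas measurable_const)

theorem fd {μ : Measure (κ → k)} {t : kˣ} {α : ℝ} (ht : 1 < ‖(t : k)‖) (hα : 0 < α)
    {p : (κ → k) → ℝ} (hp : Nl p) :
    IsFundamentalDomain (Subgroup.zpowers t) (Dp (t : k) p) (rh μ α) where
  nullMeasurableSet := (Dp_meas hp).nullMeasurableSet
  ae_covers := by
    have h0 : rh μ α {0} = 0 := by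
      rw [rh, withDensity_apply _ (measurableSet_singleton _)]
      rw [lintegral_eq_zero_iff (dens_meas α)]
      filter_upwards [ae_restrict_mem (measurableSet_singleton (0 : κ → k))] with v hv
      rw [mem_singleton_iff.1 hv, norm_zero, Real.zero_rpow (by linarith)]
      simp
    have h1 : ∀ᵐ x ∂(rh μ α), x ≠ 0 := by
      rw [ae_iff]
      simpa using h0
    filter_upwards [h1] with x hx
    obtain ⟨n, hn1, hn2⟩ := exists_mem_Ico_zpow (hp.pos x hx) ht
    refine ⟨⟨t ^ (-n), ⟨-n, rfl⟩⟩, ?_⟩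
    have e1 : p ((⟨t ^ (-n), ⟨-n, rfl⟩⟩ : Subgroup.zpowers t) • x) = ‖(t : k)‖ ^ (-n) * p x := by
      rw [Subgroup.smul_def, Units.smul_def, hp.sm]
      simp
    have h2 : 0 < ‖(t : k)‖ := by linarith
    constructor
    · rw [e1, zpow_neg, ← div_eq_inv_mul, le_div_iff₀ (by positivity), one_mul]
      exact hn1
    · rw [e1, zpow_neg, ← div_eq_inv_mul, div_lt_iff₀ (by positivity)]
      rw [zpow_add_one₀ h2.ne'] at hn2
      linarith
  aedisjoint := by
    intro a b hab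
    refine Disjoint.aedisjoint (Set.disjoint_left.2 ?_)
    rintro _ ⟨x, hx, rfl⟩ ⟨y, hy, hxy⟩
    refine hab ?_
    rcases a with ⟨a, ⟨n, rfl⟩⟩
    rcases b with ⟨b, ⟨m, rfl⟩⟩
    have h2 : 0 < ‖(t : k)‖ := by linarith
    have e1 : ‖(t : k)‖ ^ m * p y = ‖(t : k)‖ ^ n * p x := by
      have h3 := congrArg p hxy
      simp only [Subgroup.smul_def, Units.smul_def, hp.sm, Units.val_zpow_eq_zpow_val,
        norm_zpow] at h3
      exact h3
    have key : ∀ (n m : ℤ) (x y : κ → k), x ∈ Dp (t : k) p → y ∈ Dp (t : k) p →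
        ‖(t : k)‖ ^ m * p y = ‖(t : k)‖ ^ n * p x → ¬ n < m := by
      intro n m x y hx hy e hnm
      have h4 : ‖(t : k)‖ ^ n * p x < ‖(t : k)‖ ^ (n + 1) := by
        rw [zpow_add_one₀ h2.ne']
        exact mul_lt_mul_of_pos_left hx.2 (by positivity)
      have h5 : ‖(t : k)‖ ^ (n + 1) ≤ ‖(t : k)‖ ^ m := zpow_le_zpow_right₀ ht.le (by omega)
      have h6 : ‖(t : k)‖ ^ m ≤ ‖(t : k)‖ ^ m * p y :=
        le_mul_of_one_le_right (by positivity) hy.1
      linarith
    have h7 := key n m x y hx hy e1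
    have h8 := key m n y x hy hx e1.symm
    have : n = m := by omega
    subst this
    rfl

theorem mem_scS {μ : Measure (κ → k)} {t : kˣ} {α : ℝ} (h : Sc μ (t : k) α) : t ∈ scS μ α :=
  fun S => h.scale S

theorem homog {t : kˣ} {α : ℝ} {F : (κ → k) → ℝ}
    (hF : ∀ v, F ((t : k) • v) = ‖(t : k)‖ ^ (-(2 * α)) * F v) (u : Subgroup.zpowers t)
    (v : κ → k) : F (u • v) * ‖u • v‖ ^ (2 * α) = F v * ‖v‖ ^ (2 * α) := by
  have h0 : 0 < ‖(t : k)‖ := norm_pos_iff.2 t.ne_zero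
  let H : Subgroup kˣ :=
    { carrier := {a | ∀ v : κ → k, F (a • v) * ‖a • v‖ ^ (2 * α) = F v * ‖v‖ ^ (2 * α)}
      mul_mem' := by
        intro a b ha hb v
        rw [mul_smul, ha, hb]
      one_mem' := by intro v; rw [one_smul]
      inv_mem' := by
        intro a ha v
        have := ha (a⁻¹ • v)
        rw [smul_inv_smul] at this
        exact this.symm }
  have ht : t ∈ H := by
    intro v
    rw [Units.smul_def, hF, norm_smul, Real.mul_rpow (norm_nonneg _) (norm_nonneg _)]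
    have : ‖(t : k)‖ ^ (-(2 * α)) * ‖(t : k)‖ ^ (2 * α) = 1 := by
      rw [← Real.rpow_add h0]; simp
    linear_combination (F v * ‖v‖ ^ (2 * α)) * this
  have hle : Subgroup.zpowers t ≤ H := (Subgroup.zpowers_le).2 ht
  exact hle u.2 v

/-- **the integral over a shell does not depend on the shell** -/
theorem int_fd {μ : Measure (κ → k)} {t : k} {α : ℝ} (h : Sc μ t α) {p q : (κ → k) → ℝ}
    (hp : Nl p) (hq : Nl q) {F : (κ → k) → ℝ}
    (hF : ∀ v, F (t • v) = ‖t‖ ^ (-(2 * α)) * F v) :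
    ∫ v in Dp t p, F v ∂μ = ∫ v in Dp t q, F v ∂μ := by
  have t0 : t ≠ 0 := by
    rintro rfl
    have := h.one_lt
    rw [norm_zero] at this
    linarith
  lift t to kˣ using t0.isUnit
  haveI : SMulInvariantMeasure (Subgroup.zpowers t) (κ → k) (rh μ α) := by
    refine ⟨fun u S hS => ?_⟩
    exact rh_inv μ α ((Subgroup.zpowers_le.2 (mem_scS h)) u.2) hS
  have key : ∀ {r : (κ → k) → ℝ}, Nl r → ∫ v in Dp (t : k) r, F v ∂μ =
      ∫ v in Dp (t : k) r, F v * ‖v‖ ^ (2 * α) ∂(rh μ α) := by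
    intro r hr
    rw [rh, setIntegral_withDensity_eq_setIntegral_toReal_smul (dens_meas α)
      (Filter.Eventually.of_forall fun v => ENNReal.ofReal_lt_top) _ (Dp_meas hr)]
    refine setIntegral_congr_fun (Dp_meas hr) fun v hv => ?_
    have hv0 : v ≠ 0 := by
      rintro rfl
      have := hv.1
      rw [hr.zero] at this
      linarith
    have h1 : 0 < ‖v‖ := norm_pos_iff.2 hv0
    change F v = (ENNReal.ofReal (‖v‖ ^ (-(2 * α)))).toReal • (F v * ‖v‖ ^ (2 * α))
    rw [ENNReal.toReal_ofReal (by positivity), smul_eq_mul]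
    have : ‖v‖ ^ (-(2 * α)) * ‖v‖ ^ (2 * α) = 1 := by
      rw [← Real.rpow_add h1]; simp
    linear_combination (-F v) * this
  rw [key hp, key hq]
  exact (fd h.one_lt h.pos hp).setIntegral_eq (fd h.one_lt h.pos hq) (homog hF)

theorem D_eq (t : k) : D κ t = Dp t (fun v => ‖v‖) := rfl

theorem nl_norm : Nl (fun v : κ → k => ‖v‖) where
  meas := measurable_norm
  pos v hv := norm_pos_iff.2 hv
  sm c v := norm_smul c v

/-! ### change of the frame -/

section frame

variable [DecidableEq κ]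

/-- an invertible matrix as a homeomorphism -/
noncomputable def mvE (g : GL κ k) : (κ → k) ≃ₜ+ (κ → k) where
  toFun v := (g : Matrix κ κ k) *ᵥ v
  invFun v := ((g⁻¹ : GL κ k) : Matrix κ κ k) *ᵥ v
  left_inv v := by
    change ((g⁻¹ : GL κ k) : Matrix κ κ k) *ᵥ ((g : Matrix κ κ k) *ᵥ v) = v
    rw [mulVec_mulVec, ← Units.val_mul, inv_mul_cancel, Units.val_one, one_mulVec]
  right_inv v := by
    change (g : Matrix κ κ k) *ᵥ (((g⁻¹ : GL κ k) : Matrix κ κ k) *ᵥ v) = v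
    rw [mulVec_mulVec, ← Units.val_mul, mul_inv_cancel, Units.val_one, one_mulVec]
  map_add' v w := mulVec_add _ _ _
  continuous_toFun := Continuous.matrix_mulVec continuous_const continuous_id
  continuous_invFun := Continuous.matrix_mulVec continuous_const continuous_id

theorem nl_inv (g : GL κ k) : Nl (fun v : κ → k => ‖((g⁻¹ : GL κ k) : Matrix κ κ k) *ᵥ v‖) where
  meas := ((mvE g).symm.continuous.norm).measurable
  pos v hv := by
    refine norm_pos_iff.2 fun h0 => hv ?_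
    have := (mvE g).right_inv v
    change (g : Matrix κ κ k) *ᵥ (((g⁻¹ : GL κ k) : Matrix κ κ k) *ᵥ v) = v at this
    rw [h0, mulVec_zero] at this
    exact this.symm
  sm c v := by rw [mulVec_smul, norm_smul]

/-- change of variables -/
theorem int_g (μ : Measure (κ → k)) [μ.IsAddHaarMeasure] {t : k} {α : ℝ} (h : Sc μ t α)
    (g : GL κ k) : ∃ c : ℝ, 0 < c ∧ ∀ F : (κ → k) → ℝ,
      (∀ v, F (t • v) = ‖t‖ ^ (-(2 * α)) * F v) →
      ∫ v in D κ t, F ((g : Matrix κ κ k) *ᵥ v) ∂μ = c * ∫ v in D κ t, F v ∂μ := by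
  have hpos := addEquivAddHaarChar_pos (mvE g)
  set χ : ℝ≥0 := addEquivAddHaarChar (mvE g) with hχ
  refine ⟨(χ : ℝ)⁻¹, by positivity, fun F hF => ?_⟩
  have h1 : χ • μ.map (mvE g) = μ := addEquivAddHaarChar_smul_map μ (mvE g)
  have h2 : ∫ v in D κ t, F ((g : Matrix κ κ k) *ᵥ v) ∂μ =
      ∫ v in Dp t (fun v => ‖((g⁻¹ : GL κ k) : Matrix κ κ k) *ᵥ v‖), F v ∂(μ.map (mvE g)) := by
    have hme : MeasurableEmbedding (mvE g) := (mvE g).toHomeomorph.measurableEmbedding
    rw [hme.setIntegral_map]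
    have e1 : (mvE g) ⁻¹' (Dp t fun v => ‖((g⁻¹ : GL κ k) : Matrix κ κ k) *ᵥ v‖) = D κ t := by
      ext v
      change (1 ≤ ‖(mvE g).symm (mvE g v)‖ ∧ ‖(mvE g).symm (mvE g v)‖ < ‖t‖) ↔ _
      rw [(mvE g).symm_apply_apply]
      rfl
    rw [e1]
    rfl
  have h3 : ∫ v in D κ t, F v ∂μ =
      χ * ∫ v in Dp t (fun v => ‖((g⁻¹ : GL κ k) : Matrix κ κ k) *ᵥ v‖), F v ∂(μ.map (mvE g)) := by
    rw [D_eq, int_fd h nl_norm (nl_inv g) hF]
    conv_lhs => rw [← h1]
    rw [Measure.restrict_smul, integral_smul_nnreal_measure]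
    rfl
  rw [h2, h3, ← mul_assoc, inv_mul_cancel₀ (by exact_mod_cast hpos.ne'), one_mul]

theorem PR_mul (μ : Measure (κ → k)) [μ.IsAddHaarMeasure] {t : k} {α : ℝ} (h : Sc μ t α)
    (A B : Matrix ι κ k) (g : GL κ k) : ∃ c : ℝ, 0 < c ∧
      (∀ A B : Matrix ι κ k, PR μ t α (A * (g : Matrix κ κ k)) (B * (g : Matrix κ κ k)) = c * PR μ t α A B) ∧
      (∀ A : Matrix ι κ k, NR μ t α (A * (g : Matrix κ κ k)) = c * NR μ t α A) := by
  obtain ⟨c, hc, hF⟩ := int_g μ h g
  have h0 : 0 < ‖t‖ := lt_trans zero_lt_one h.one_lt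
  refine ⟨c, hc, fun A B => ?_, fun A => ?_⟩
  · have := hF (fun v => ‖A *ᵥ v‖ ^ (-α) * ‖B *ᵥ v‖ ^ (-α)) fun v => by
      simp only [mulVec_smul, norm_smul, Real.mul_rpow (norm_nonneg _) (norm_nonneg _)]
      rw [show -(2 * α) = -α + -α by ring, Real.rpow_add h0]
      ring
    simp only [mulVec_mulVec] at this
    exact this
  · have := hF (fun v => ‖A *ᵥ v‖ ^ (-(2 * α))) fun v => by
      simp only [mulVec_smul, norm_smul, Real.mul_rpow (norm_nonneg _) (norm_nonneg _)]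
    simp only [mulVec_mulVec] at this
    exact this

/-- **(h1)** the kernel does not depend on the coordinates of the frame -/
theorem KY_mul (μ : Measure (κ → k)) [μ.IsAddHaarMeasure] {t : k} {α : ℝ} (h : Sc μ t α)
    (A B : Matrix ι κ k) (g : GL κ k) :
    KY μ t α (A * (g : Matrix κ κ k)) (B * (g : Matrix κ κ k)) = KY μ t α A B := by
  obtain ⟨c, hc, h1, h2⟩ := PR_mul μ h A B g
  rw [KY, h1, h2, h2, KY, show c * NR μ t α A * (c * NR μ t α B) =
    c ^ 2 * (NR μ t α A * NR μ t α B) by ring, Real.sqrt_mul (by positivity), Real.sqrt_sq hc.le,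
    mul_div_mul_left _ _ hc.ne']

end frame

/-! ### continuity -/

theorem D_meas (t : k) : MeasurableSet (D κ t) := Dp_meas (p := fun v : κ → k => ‖v‖) nl_norm

theorem D_fin (μ : Measure (κ → k)) [μ.IsAddHaarMeasure] (t : k) : μ (D κ t) < ∞ := by
  refine lt_of_le_of_lt (measure_mono (t := Metric.closedBall 0 ‖t‖) fun v hv => ?_)
    (isCompact_closedBall _ _).measure_lt_top
  rw [mem_closedBall_zero_iff]
  exact hv.2.le

theorem D_pos (μ : Measure (κ → k)) [μ.IsAddHaarMeasure] [Nonempty κ] {t : k} {α : ℝ}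
    (h : Sc μ t α) : μ (D κ t) ≠ 0 := by
  intro h0
  have t0 : t ≠ 0 := by
    rintro rfl
    have := h.one_lt
    rw [norm_zero] at this
    linarith
  lift t to kˣ using t0.isUnit
  have h1 : ∀ n : ℤ, μ ((fun v => (t ^ n) • v) ⁻¹' D κ (t : k)) = 0 := by
    intro n
    have hn : t ^ n ∈ scS μ α := Subgroup.zpow_mem _ (mem_scS h) n
    have h2 := hn (D κ (t : k))
    rw [h0] at h2
    rcases mul_eq_zero.1 h2 with h3 | h3
    · exact h3
    · exfalso
      rw [ENNReal.ofReal_eq_zero] at h3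
      have : 0 < ‖((t ^ n : kˣ) : k)‖ := norm_pos_iff.2 (t ^ n).ne_zero
      have := Real.rpow_pos_of_pos this (2 * α)
      linarith
  have h2 : ({0}ᶜ : Set (κ → k)) ⊆ ⋃ n : ℤ, (fun v => (t ^ n) • v) ⁻¹' D κ (t : k) := by
    intro x hx
    have hx0 : x ≠ 0 := hx
    obtain ⟨n, hn1, hn2⟩ := exists_mem_Ico_zpow (norm_pos_iff.2 hx0) h.one_lt
    refine mem_iUnion.2 ⟨-n, ?_⟩
    have h2 : 0 < ‖(t : k)‖ := lt_trans zero_lt_one h.one_lt
    have e1 : ‖(t ^ (-n)) • x‖ = ‖(t : k)‖ ^ (-n) * ‖x‖ := by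
      rw [Units.smul_def, norm_smul]
      simp
    constructor
    · change 1 ≤ ‖(t ^ (-n)) • x‖
      rw [e1, zpow_neg, ← div_eq_inv_mul, le_div_iff₀ (by positivity), one_mul]
      exact hn1
    · change ‖(t ^ (-n)) • x‖ < _
      rw [e1, zpow_neg, ← div_eq_inv_mul, div_lt_iff₀ (by positivity)]
      rw [zpow_add_one₀ h2.ne'] at hn2
      linarith
  have h3 : μ ({0}ᶜ : Set (κ → k)) = 0 := measure_mono_null h2 (measure_iUnion_null h1)
  have h4 : ({0}ᶜ : Set (κ → k)).Nonempty := by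
    obtain ⟨i⟩ := ‹Nonempty κ›
    refine ⟨fun _ => 1, fun h5 => ?_⟩
    have := congrFun (show (fun _ : κ => (1 : k)) = 0 from h5) i
    exact one_ne_zero this
  exact (isOpen_compl_singleton.measure_pos μ h4).ne' h3

/-- injective matrices -/
def Inj (A : Matrix ι κ k) : Prop := ∀ v : κ → k, A *ᵥ v = 0 → v = 0

omit [MeasurableSpace k] [BorelSpace k] in
theorem norm_ge {A₀ : Matrix ι κ k} (hA : Inj A₀) (t : k) :
    ∃ c : ℝ, 0 < c ∧ ∀ᶠ A in 𝓝 A₀, ∀ v ∈ D κ t, c < ‖A *ᵥ v‖ := by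
  have hK : IsCompact {v : κ → k | 1 ≤ ‖v‖ ∧ ‖v‖ ≤ ‖t‖} := by
    refine (isCompact_closedBall (0 : κ → k) ‖t‖).of_isClosed_subset
      ((isClosed_le continuous_const continuous_norm).inter
        (isClosed_le continuous_norm continuous_const)) fun v hv => ?_
    rw [mem_closedBall_zero_iff]
    exact hv.2
  have hc : Continuous fun q : Matrix ι κ k × (κ → k) => ‖q.1 *ᵥ q.2‖ :=
    (Continuous.matrix_mulVec continuous_fst continuous_snd).norm
  rcases (Set.eq_empty_or_nonempty {v : κ → k | 1 ≤ ‖v‖ ∧ ‖v‖ ≤ ‖t‖}) with he | hne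
  · refine ⟨1, one_pos, Filter.Eventually.of_forall fun A v hv => ?_⟩
    have : v ∈ {v : κ → k | 1 ≤ ‖v‖ ∧ ‖v‖ ≤ ‖t‖} := ⟨hv.1, hv.2.le⟩
    rw [he] at this
    exact absurd this (Set.notMem_empty v)
  obtain ⟨v₀, hv₀, hmin⟩ := hK.exists_isMinOn hne
    (hc.comp (Continuous.prodMk_right A₀)).continuousOn
  have hpos : 0 < ‖A₀ *ᵥ v₀‖ := by
    refine norm_pos_iff.2 fun h0 => ?_
    have := hA v₀ h0
    subst this
    have := hv₀.1
    rw [norm_zero] at this
    linarith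
  refine ⟨‖A₀ *ᵥ v₀‖ / 2, by positivity, ?_⟩
  have h1 : ∀ v ∈ {v : κ → k | 1 ≤ ‖v‖ ∧ ‖v‖ ≤ ‖t‖}, ∀ᶠ q : Matrix ι κ k × (κ → k) in 𝓝 (A₀, v),
      ‖A₀ *ᵥ v₀‖ / 2 < ‖q.1 *ᵥ q.2‖ := by
    intro v hv
    refine (hc.tendsto (A₀, v)).eventually_const_lt ?_
    have : ‖A₀ *ᵥ v₀‖ ≤ ‖A₀ *ᵥ v‖ := hmin hv
    change ‖A₀ *ᵥ v₀‖ / 2 < ‖A₀ *ᵥ v‖
    linarith
  have h2 : ∀ᶠ A in 𝓝 A₀, ∀ v ∈ {v : κ → k | 1 ≤ ‖v‖ ∧ ‖v‖ ≤ ‖t‖},
      ‖A₀ *ᵥ v₀‖ / 2 < ‖A *ᵥ v‖ :=
    hK.eventually_forall_of_forall_eventually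
      (P := fun (A : Matrix ι κ k) (v : κ → k) => ‖A₀ *ᵥ v₀‖ / 2 < ‖A *ᵥ v‖) h1
  filter_upwards [h2] with A hA v hv
  exact hA v ⟨hv.1, hv.2.le⟩

theorem mv_meas (A : Matrix ι κ k) (β : ℝ) : Measurable fun v : κ → k => ‖A *ᵥ v‖ ^ β :=
  ((Continuous.matrix_mulVec continuous_const continuous_id).norm).measurable.pow_const _

theorem PR_cont (μ : Measure (κ → k)) [μ.IsAddHaarMeasure] {t : k} {α : ℝ} (h : Sc μ t α)
    {A₀ B₀ : Matrix ι κ k} (hA : Inj A₀) (hB : Inj B₀) :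
    ContinuousAt (fun q : Matrix ι κ k × Matrix ι κ k => PR μ t α q.1 q.2) (A₀, B₀) := by
  obtain ⟨c, hc, hcA⟩ := norm_ge hA t
  obtain ⟨c', hc', hcB⟩ := norm_ge hB t
  haveI : FirstCountableTopology (Matrix ι κ k) :=
    inferInstanceAs (FirstCountableTopology (ι → κ → k))
  have hev : ∀ᶠ q : Matrix ι κ k × Matrix ι κ k in 𝓝 (A₀, B₀),
      (∀ v ∈ D κ t, c < ‖q.1 *ᵥ v‖) ∧ ∀ v ∈ D κ t, c' < ‖q.2 *ᵥ v‖ := by
    rw [nhds_prod_eq]
    exact hcA.prod_mk hcB
  have hα := h.pos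
  refine continuousAt_of_dominated (bound := fun _ => c ^ (-α) * c' ^ (-α)) ?_ ?_ ?_ ?_
  · exact Filter.Eventually.of_forall fun q =>
      ((mv_meas q.1 _).mul (mv_meas q.2 _)).aestronglyMeasurable
  · filter_upwards [hev] with q hq
    filter_upwards [ae_restrict_mem (D_meas t)] with v hv
    rw [Real.norm_of_nonneg (by positivity)]
    exact mul_le_mul (Real.rpow_le_rpow_of_nonpos hc (hq.1 v hv).le (by linarith))
      (Real.rpow_le_rpow_of_nonpos hc' (hq.2 v hv).le (by linarith)) (by positivity)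
      (by positivity)
  · exact integrableOn_const (D_fin μ t).ne
  · filter_upwards [ae_restrict_mem (D_meas t)] with v hv
    have e1 : ContinuousAt (fun q : Matrix ι κ k × Matrix ι κ k => ‖q.1 *ᵥ v‖) (A₀, B₀) :=
      ((Continuous.matrix_mulVec continuous_fst continuous_const).norm).continuousAt
    have e2 : ContinuousAt (fun q : Matrix ι κ k × Matrix ι κ k => ‖q.2 *ᵥ v‖) (A₀, B₀) :=
      ((Continuous.matrix_mulVec continuous_snd continuous_const).norm).continuousAt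
    have n1 : ‖A₀ *ᵥ v‖ ≠ 0 := fun h0 => by
      have := hA v (norm_eq_zero.1 h0)
      subst this
      have := hv.1
      rw [norm_zero] at this
      linarith
    have n2 : ‖B₀ *ᵥ v‖ ≠ 0 := fun h0 => by
      have := hB v (norm_eq_zero.1 h0)
      subst this
      have := hv.1
      rw [norm_zero] at this
      linarith
    exact (e1.rpow_const (Or.inl n1)).mul (e2.rpow_const (Or.inl n2))

theorem PR_self' (μ : Measure (κ → k)) {t : k} (α : ℝ) (A : Matrix ι κ k) (hα : 0 < α) :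
    PR μ t α A A = NR μ t α A := by
  unfold PR NR
  refine setIntegral_congr_fun (D_meas t) fun v hv => ?_
  change ‖A *ᵥ v‖ ^ (-α) * ‖A *ᵥ v‖ ^ (-α) = _
  rcases (norm_nonneg (A *ᵥ v)).eq_or_lt with h0 | h0
  · rw [← h0, Real.zero_rpow (by linarith), Real.zero_rpow (by linarith), mul_zero]
  · rw [← Real.rpow_add h0]
    congr 1
    ring

theorem NR_cont (μ : Measure (κ → k)) [μ.IsAddHaarMeasure] {t : k} {α : ℝ} (h : Sc μ t α)
    {A₀ : Matrix ι κ k} (hA : Inj A₀) : ContinuousAt (fun A : Matrix ι κ k => NR μ t α A) A₀ := by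
  have h1 : ContinuousAt (fun A : Matrix ι κ k => (A, A)) A₀ :=
    (continuous_id.prodMk continuous_id).continuousAt
  have h2 := ContinuousAt.comp (f := fun A : Matrix ι κ k => (A, A)) (PR_cont μ h hA hA) h1
  refine h2.congr (Filter.Eventually.of_forall fun A => ?_)
  exact PR_self' μ α A h.pos

theorem NR_pos (μ : Measure (κ → k)) [μ.IsAddHaarMeasure] [Nonempty κ] {t : k} {α : ℝ}
    (h : Sc μ t α) {A : Matrix ι κ k} (hA : Inj A) : 0 < NR μ t α A := by
  obtain ⟨c, hc, hcA⟩ := norm_ge hA t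
  have h1 := hcA.self_of_nhds
  have hα := h.pos
  have hint : IntegrableOn (fun v : κ → k => ‖A *ᵥ v‖ ^ (-(2 * α))) (D κ t) μ := by
    refine Measure.integrableOn_of_bounded (M := c ^ (-(2 * α))) (D_fin μ t).ne
      (mv_meas A _).aestronglyMeasurable ?_
    filter_upwards [ae_restrict_mem (D_meas t)] with v hv
    rw [Real.norm_of_nonneg (by positivity)]
    exact Real.rpow_le_rpow_of_nonpos hc (h1 v hv).le (by linarith)
  unfold NR
  rw [setIntegral_pos_iff_support_of_nonneg_ae _ hint]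
  · have e : Function.support (fun v : κ → k => ‖A *ᵥ v‖ ^ (-(2 * α))) ∩ D κ t = D κ t := by
      refine inter_eq_right.2 fun v hv => ?_
      have : 0 < ‖A *ᵥ v‖ := lt_trans hc (h1 v hv)
      exact (Real.rpow_pos_of_pos this _).ne'
    rw [e]
    exact pos_iff_ne_zero.2 (D_pos μ h)
  · filter_upwards with v
    change 0 ≤ ‖A *ᵥ v‖ ^ (-(2 * α))
    positivity

/-- **(h5)** continuity of the kernel -/
theorem KY_cont (μ : Measure (κ → k)) [μ.IsAddHaarMeasure] [Nonempty κ] {t : k} {α : ℝ}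
    (h : Sc μ t α) {A₀ B₀ : Matrix ι κ k} (hA : Inj A₀) (hB : Inj B₀) :
    ContinuousAt (fun q : Matrix ι κ k × Matrix ι κ k => KY μ t α q.1 q.2) (A₀, B₀) := by
  unfold KY
  have e1 : ContinuousAt (fun q : Matrix ι κ k × Matrix ι κ k => NR μ t α q.1) (A₀, B₀) :=
    ContinuousAt.comp (f := Prod.fst) (NR_cont μ h hA) continuousAt_fst
  have e2 : ContinuousAt (fun q : Matrix ι κ k × Matrix ι κ k => NR μ t α q.2) (A₀, B₀) :=
    ContinuousAt.comp (f := Prod.snd) (NR_cont μ h hB) continuousAt_snd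
  refine (PR_cont μ h hA hB).div ((e1.mul e2).sqrt) ?_
  exact (Real.sqrt_pos.2 (mul_pos (NR_pos μ h hA) (NR_pos μ h hB))).ne'

end Vale.Agent.P092.H85.Ker
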