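import Vale.Agent.P092.UN.StU
import Vale.Agent.P092.H759.SpN5
import Vale.Agent.P092.H678.P.EuQ

/-!
P092, [CL-TOP] (helper85), part 4: the quotients of `Sp_{2n}(k)` belong to `TypeU`; the named example
`PSp_{2n}(F_q[x])`, `q` odd, `n ≥ 2` (after `isCl_sp` of helper759 and `latticeC_poly` of helper678).
-/

set_option linter.all false

open Matrix

namespace Vale.Agent.P092.H85.CU

open Vale.Agent.P092.H759 (SI isom_iff quo_SI)
open Vale.Agent.P092.H678.P (PSp psp psp_A coc_poly two_LS quo_psp)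
open Vale.Agent.P092.H678 (LS)

/-- The quotients of `Sp_{2n}(k)` by central subgroups belong to `TypeU`. -/
theorem typeU_sp {k : Type} [NontriviallyNormedField k] [ProperSpace k] [IsUltrametricDist k]
    {n : ℕ} (hn : 2 ≤ n) (h2 : (2 : k) ≠ 0 ∨ 3 ≤ n) {E : Type} [Group E] [TopologicalSpace E]
    (h : UN.Quo (symplecticGroup (Fin n) k) E) : UN.TypeU E :=
  ⟨k, inferInstance, RingHom.id k, -1, Empty, inferInstance, inferInstance, 0, n, SI n k,
    inferInstance, inferInstance, continuous_id, fun _ => rfl, by ring, rfl,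
    ⟨fun i => i.elim, fun v hv => (hv (Subsingleton.elim _ _)).elim⟩, hn,
    fun g => (isom_iff n k g.1).symm, Or.inr ⟨rfl, inferInstance⟩, h2, quo_SI n k h⟩

/-- **`PSp_{2n}(F_q[x])`, `q` odd, `n ≥ 2`, is an ICC lattice of `PSp_{2n}(F_q((1/x)))`.** -/
theorem latticeU_poly (F : Type) [Field F] [Finite F] (h2 : (2 : F) ≠ 0) {n : ℕ} (hn : 2 ≤ n) :
    UN.LatticeU (symplecticGroup (Fin n) (Polynomial F) ⧸
      Subgroup.center (symplecticGroup (Fin n) (Polynomial F))) := by
  obtain ⟨h3, h4, h5⟩ := psp_A (Fin n) (coc_poly F) (two_LS h2)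
  exact ⟨h3, PSp (Fin n) (LS F), inferInstance, inferInstance,
    psp (Fin n) (coc_poly F) (two_LS h2), typeU_sp hn (Or.inl (two_LS h2)) quo_psp, h4, h5⟩

end Vale.Agent.P092.H85.CU
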