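import Vale.Agent.P092.H85.KerI
import Mathlib.Analysis.Matrix.Order
import Mathlib.Analysis.InnerProductSpace.Positive

/-!
P092 (helper85), team N, [N-GAPB] (#6876 (2)): positive semidefinite real kernels: products, powers,
integrals, the Hilbert space form, and `KY`.
-/

set_option linter.all false

open MeasureTheory Matrix Set Filter Topology
open scoped ENNReal NNReal InnerProductSpace

namespace Vale.Agent.P092.H85.Ker

open Vale.Agent.P092.H541.Hel

/-- positive semidefinite real kernels -/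
def Psd {X : Type*} (ε : X → X → ℝ) : Prop :=
  (∀ x y, ε x y = ε y x) ∧
    ∀ (s : Finset X) (c : X → ℝ), 0 ≤ ∑ x ∈ s, ∑ y ∈ s, c x * c y * ε x y

theorem psd_iff {X : Type*} {ε : X → X → ℝ} : Psd ε ↔ (Matrix.of ε : Matrix X X ℝ).PosSemidef := by
  classical
  constructor
  · rintro ⟨h1, h2⟩
    refine ⟨?_, fun x => ?_⟩
    · ext i j
      exact h1 j i
    · have := h2 x.support x
      simp only [Finsupp.sum, Matrix.of_apply, star_trivial]
      refine this.trans_eq (Finset.sum_congr rfl fun i _ => Finset.sum_congr rfl fun j _ => ?_)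
      ring
  · rintro ⟨h1, h2⟩
    refine ⟨fun x y => ?_, fun s c => ?_⟩
    · have := congrFun (congrFun h1 y) x
      exact this
    · have h3 := h2 (∑ i ∈ s, Finsupp.single i (c i))
      have e : ∀ i, (∑ i ∈ s, Finsupp.single i (c i) : X →₀ ℝ) i = if i ∈ s then c i else 0 := by
        intro i
        rw [Finsupp.finset_sum_apply]
        by_cases hi : i ∈ s
        · rw [if_pos hi, Finset.sum_eq_single i]
          · simp
          · intro b _ hb
            simp [hb]
          · intro h; exact absurd hi h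
        · rw [if_neg hi]
          refine Finset.sum_eq_zero fun j hj => ?_
          have : j ≠ i := fun h => hi (h ▸ hj)
          simp [this]
      have hs : (∑ i ∈ s, Finsupp.single i (c i) : X →₀ ℝ).support ⊆ s := by
        intro i hi
        rw [Finsupp.mem_support_iff, e] at hi
        by_contra hi'
        exact hi (if_neg hi')
      rw [Finsupp.sum_of_support_subset _ hs _ (by simp)] at h3
      refine h3.trans_eq (Finset.sum_congr rfl fun i hi => ?_)
      rw [Finsupp.sum_of_support_subset _ hs _ (by simp)]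
      refine Finset.sum_congr rfl fun j hj => ?_
      rw [e, e, if_pos hi, if_pos hj]
      simp only [Matrix.of_apply, star_trivial]
      ring

namespace Psd

variable {X : Type*} {ε ε' : X → X → ℝ}

theorem mul (h : Psd ε) (h' : Psd ε') : Psd (fun x y => ε x y * ε' x y) :=
  psd_iff.2 ((psd_iff.1 h).hadamard (psd_iff.1 h'))

theorem const {c : ℝ} (hc : 0 ≤ c) : Psd (fun _ _ : X => c) := by
  refine ⟨fun _ _ => rfl, fun s d => ?_⟩
  have : ∑ x ∈ s, ∑ y ∈ s, d x * d y * c = c * (∑ x ∈ s, d x) ^ 2 := by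
    rw [sq, Finset.sum_mul_sum, Finset.mul_sum]
    refine Finset.sum_congr rfl fun i _ => ?_
    rw [Finset.mul_sum]
    exact Finset.sum_congr rfl fun j _ => by ring
  rw [this]
  positivity

theorem pow (h : Psd ε) (p : ℕ) : Psd (fun x y => ε x y ^ p) := by
  induction p with
  | zero => simpa using const (X := X) zero_le_one
  | succ p ih =>
    have := ih.mul h
    simpa only [pow_succ] using this

theorem smul (h : Psd ε) {c : ℝ} (hc : 0 ≤ c) : Psd (fun x y => c * ε x y) :=
  (const hc).mul h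

theorem add (h : Psd ε) (h' : Psd ε') : Psd (fun x y => ε x y + ε' x y) := by
  refine ⟨fun x y => by
    change ε x y + ε' x y = ε y x + ε' y x
    rw [h.1 x y, h'.1 x y], fun s c => ?_⟩
  have := add_nonneg (h.2 s c) (h'.2 s c)
  refine this.trans_eq ?_
  rw [← Finset.sum_add_distrib]
  refine Finset.sum_congr rfl fun i _ => ?_
  rw [← Finset.sum_add_distrib]
  exact Finset.sum_congr rfl fun j _ => by ring

theorem comp {Y : Type*} (h : Psd ε) (f : Y → X) : Psd (fun x y => ε (f x) (f y)) :=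
  psd_iff.2 ((psd_iff.1 h).submatrix f)

theorem diag (h : Psd ε) (x : X) : 0 ≤ ε x x := by
  have := h.2 {x} (fun _ => 1)
  simpa using this

/-- Gram vectors on a finite set -/
theorem gram (h : Psd ε) (s : Finset X) : ∃ (m : ℕ) (v : Fin m → X → ℝ),
    ∀ x ∈ s, ∀ y ∈ s, ε x y = ∑ i, v i x * v i y := by
  classical
  have h1 := (psd_iff.1 (h.comp (fun x : s => (x : X))))
  obtain ⟨m, v, hv⟩ := Matrix.posSemidef_iff_eq_sum_vecMulVec.1 h1
  refine ⟨m, fun i x => if hx : x ∈ s then v i ⟨x, hx⟩ else 0, fun x hx y hy => ?_⟩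
  have := congrFun (congrFun hv ⟨x, hx⟩) ⟨y, hy⟩
  simp only [Matrix.of_apply] at this
  rw [this, Matrix.sum_apply]
  refine Finset.sum_congr rfl fun i _ => ?_
  simp only [dif_pos hx, dif_pos hy, vecMulVec_apply, Pi.star_apply, star_trivial]

/-- the Hilbert space form -/
theorem hil (h : Psd ε) {K : Type*} [NormedAddCommGroup K] [InnerProductSpace ℂ K] (s : Finset X)
    (ξ : X → K) : 0 ≤ (∑ x ∈ s, ∑ y ∈ s, (ε x y : ℂ) * ⟪ξ x, ξ y⟫_ℂ).re := by
  obtain ⟨m, v, hv⟩ := h.gram s
  have e : ∑ x ∈ s, ∑ y ∈ s, (ε x y : ℂ) * ⟪ξ x, ξ y⟫_ℂ =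
      ∑ i, ⟪∑ x ∈ s, (v i x : ℂ) • ξ x, ∑ y ∈ s, (v i y : ℂ) • ξ y⟫_ℂ := by
    have e1 : ∀ i, ⟪∑ x ∈ s, (v i x : ℂ) • ξ x, ∑ y ∈ s, (v i y : ℂ) • ξ y⟫_ℂ =
        ∑ x ∈ s, ∑ y ∈ s, ((v i x * v i y : ℝ) : ℂ) * ⟪ξ x, ξ y⟫_ℂ := by
      intro i
      rw [sum_inner]
      refine Finset.sum_congr rfl fun x _ => ?_
      rw [inner_sum]
      refine Finset.sum_congr rfl fun y _ => ?_
      rw [inner_smul_left, inner_smul_right, Complex.conj_ofReal, Complex.ofReal_mul]
      ring
    simp only [e1]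
    rw [Finset.sum_comm (s := (Finset.univ : Finset (Fin m))) (t := s)]
    refine Finset.sum_congr rfl fun x hx => ?_
    rw [Finset.sum_comm (s := (Finset.univ : Finset (Fin m))) (t := s)]
    refine Finset.sum_congr rfl fun y hy => ?_
    rw [hv x hx y hy, ← Finset.sum_mul, Complex.ofReal_sum]
  rw [e, Complex.re_sum]
  refine Finset.sum_nonneg fun i _ => ?_
  have := inner_self_nonneg (𝕜 := ℂ) (x := ∑ x ∈ s, (v i x : ℂ) • ξ x)
  exact this

/-- Cauchy-Schwarz -/
theorem sq_le (h : Psd ε) (x y : X) : ε x y ^ 2 ≤ ε x x * ε y y := by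
  classical
  obtain ⟨m, v, hv⟩ := h.gram {x, y}
  have hx : x ∈ ({x, y} : Finset X) := by simp
  have hy : y ∈ ({x, y} : Finset X) := by simp
  rw [hv x hx y hy, hv x hx x hx, hv y hy y hy]
  have := Finset.sum_mul_sq_le_sq_mul_sq Finset.univ (fun i => v i x) (fun i => v i y)
  simpa only [sq] using this

theorem abs_le_one (h : Psd ε) (h1 : ∀ x, ε x x ≤ 1) (x y : X) : |ε x y| ≤ 1 := by
  have h2 := h.sq_le x y
  have h3 : ε x x * ε y y ≤ 1 := mul_le_one₀ (h1 x) (h.diag y) (h1 y)
  rw [← sq_le_one_iff_abs_le_one]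
  linarith

/-- integrals of kernels -/
theorem integral {Ω : Type*} [MeasurableSpace Ω] {m : Measure Ω} {ε : Ω → X → X → ℝ}
    (h : ∀ᵐ ω ∂m, Psd (ε ω)) (hi : ∀ x y, Integrable (fun ω => ε ω x y) m) :
    Psd (fun x y => ∫ ω, ε ω x y ∂m) := by
  refine ⟨fun x y => integral_congr_ae ?_, fun s c => ?_⟩
  · filter_upwards [h] with ω hω
    exact hω.1 x y
  · have e : ∑ x ∈ s, ∑ y ∈ s, c x * c y * ∫ ω, ε ω x y ∂m =
        ∫ ω, ∑ x ∈ s, ∑ y ∈ s, c x * c y * ε ω x y ∂m := by
      rw [integral_finset_sum _ fun x _ => integrable_finset_sum _ fun y _ =>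
        (hi x y).const_mul _]
      refine Finset.sum_congr rfl fun x _ => ?_
      rw [integral_finset_sum _ fun y _ => (hi x y).const_mul _]
      exact Finset.sum_congr rfl fun y _ => (integral_const_mul _ _).symm
    rw [e]
    refine integral_nonneg_of_ae ?_
    filter_upwards [h] with ω hω
    exact hω.2 s c

end Psd

/-! ### the kernel `KY` -/

variable {k : Type} [NontriviallyNormedField k] [ProperSpace k] [MeasurableSpace k] [BorelSpace k]
  {ι κ : Type} [Fintype ι] [Fintype κ]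

theorem NR_nonneg (μ : Measure (κ → k)) (t : k) (α : ℝ) (A : Matrix ι κ k) : 0 ≤ NR μ t α A :=
  integral_nonneg fun v => by positivity

theorem PR_int (μ : Measure (κ → k)) [μ.IsAddHaarMeasure] {t : k} {α : ℝ} (h : Sc μ t α)
    {A B : Matrix ι κ k} (hA : Inj A) (hB : Inj B) :
    IntegrableOn (fun v : κ → k => ‖A *ᵥ v‖ ^ (-α) * ‖B *ᵥ v‖ ^ (-α)) (D κ t) μ := by
  obtain ⟨c, hc, hcA⟩ := norm_ge hA t
  obtain ⟨c', hc', hcB⟩ := norm_ge hB t
  have hα := h.pos
  refine Measure.integrableOn_of_bounded (M := c ^ (-α) * c' ^ (-α)) (D_fin μ t).ne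
    ((mv_meas A _).mul (mv_meas B _)).aestronglyMeasurable ?_
  filter_upwards [ae_restrict_mem (D_meas t)] with v hv
  rw [Real.norm_of_nonneg (by positivity)]
  exact mul_le_mul (Real.rpow_le_rpow_of_nonpos hc (hcA.self_of_nhds v hv).le (by linarith))
    (Real.rpow_le_rpow_of_nonpos hc' (hcB.self_of_nhds v hv).le (by linarith)) (by positivity)
    (by positivity)

/-- **the kernel is positive semidefinite** -/
theorem KY_psd (μ : Measure (κ → k)) [μ.IsAddHaarMeasure] {t : k} {α : ℝ} (h : Sc μ t α)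
    {X : Type*} (A : X → Matrix ι κ k) (hA : ∀ x, Inj (A x)) :
    Psd (fun x y => KY μ t α (A x) (A y)) := by
  refine ⟨fun x y => ?_, fun s c => ?_⟩
  · change PR μ t α (A x) (A y) / √(NR μ t α (A x) * NR μ t α (A y)) =
      PR μ t α (A y) (A x) / √(NR μ t α (A y) * NR μ t α (A x))
    rw [mul_comm (NR μ t α (A x))]
    congr 1
    refine setIntegral_congr_fun (D_meas t) fun v _ => ?_
    exact mul_comm _ _
  · have e : ∑ x ∈ s, ∑ y ∈ s, c x * c y * KY μ t α (A x) (A y) =
        ∫ v in D κ t, (∑ x ∈ s, c x / √(NR μ t α (A x)) * ‖A x *ᵥ v‖ ^ (-α)) ^ 2 ∂μ := by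
      have e1 : ∀ v : κ → k, (∑ x ∈ s, c x / √(NR μ t α (A x)) * ‖A x *ᵥ v‖ ^ (-α)) ^ 2 =
          ∑ x ∈ s, ∑ y ∈ s, (c x / √(NR μ t α (A x)) * (c y / √(NR μ t α (A y)))) *
            (‖A x *ᵥ v‖ ^ (-α) * ‖A y *ᵥ v‖ ^ (-α)) := by
        intro v
        rw [sq, Finset.sum_mul_sum]
        exact Finset.sum_congr rfl fun x _ => Finset.sum_congr rfl fun y _ => by ring
      simp only [e1]
      rw [integral_finset_sum _ fun x _ => integrable_finset_sum _ fun y _ =>
        (PR_int μ h (hA x) (hA y)).const_mul _]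
      refine Finset.sum_congr rfl fun x _ => ?_
      rw [integral_finset_sum _ fun y _ => (PR_int μ h (hA x) (hA y)).const_mul _]
      refine Finset.sum_congr rfl fun y _ => ?_
      rw [integral_const_mul, KY, Real.sqrt_mul (NR_nonneg μ t α _)]
      change _ = _ * PR μ t α (A x) (A y)
      rw [div_mul_div_comm, mul_div_assoc', div_mul_eq_mul_div]
    rw [e]
    exact integral_nonneg fun v => by positivity

theorem KY_self (μ : Measure (κ → k)) [μ.IsAddHaarMeasure] [Nonempty κ] {t : k} {α : ℝ}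
    (h : Sc μ t α) {A : Matrix ι κ k} (hA : Inj A) : KY μ t α A A = 1 := by
  have h1 := NR_pos μ h hA
  rw [KY, PR_self' μ α A h.pos, Real.sqrt_mul_self h1.le, div_self h1.ne']

theorem KY_abs (μ : Measure (κ → k)) [μ.IsAddHaarMeasure] [Nonempty κ] {t : k} {α : ℝ}
    (h : Sc μ t α) {A B : Matrix ι κ k} (hA : Inj A) (hB : Inj B) : |KY μ t α A B| ≤ 1 := by
  have h1 := KY_psd μ h (fun b : Bool => if b then A else B) (by
    intro b; cases b
    · exact hB
    · exact hA)
  have h2 := h1.abs_le_one (fun b => by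
    cases b
    · exact (KY_self μ h hB).le
    · exact (KY_self μ h hA).le) true false
  exact h2

theorem KY_nonneg (μ : Measure (κ → k)) {t : k} {α : ℝ} (A B : Matrix ι κ k) :
    0 ≤ KY μ t α A B := by
  refine div_nonneg (integral_nonneg fun v => ?_) (Real.sqrt_nonneg _)
  positivity

end Vale.Agent.P092.H85.Ker
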