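import Vale.Agent.P092.H87.Tst
import Vale.Agent.P092.H100.Ker3

/-!
P092 (helper85), team N, [N-GAPB] (#6876 (3), #7438): the upper bound in the mean.  If `g = U d V`
has a large ratio of two of its first `j` diagonal entries, `∫ KY (g Y) Y dm(Y)` is small.
-/

set_option linter.all false

open MeasureTheory Matrix Set

namespace Vale.Agent.P092.H85.KerU

open Vale.Agent.P092.H541.Hel (KY Sc D)
open Vale.Agent.P092.H87.Contr (Frm top upper_m lower)
open Vale.Agent.P092.H100.Ker (kl um um_ge RF)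

variable {k : Type} [NontriviallyNormedField k] [ProperSpace k] [MeasurableSpace k]
  [BorelSpace k] {n j : ℕ}

theorem inj_of_det (hj : j ≤ n) {W : Matrix (Fin n) (Fin j) k} (h : (top hj W).det ≠ 0) :
    H541.Hel.Inj W := fun v hv => by
  refine Matrix.eq_zero_of_mulVec_eq_zero h ?_
  ext a
  show (W *ᵥ v) (Fin.castLE hj a) = _
  rw [hv]
  rfl

theorem ae_inj {hj : j ≤ n} {m : Measure (Fin n → Fin j → k)} (hm : Frm hj m)
    (g : Matrix (Fin n) (Fin n) k) {g' : Matrix (Fin n) (Fin n) k} (hg : g * g' = 1) :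
    ∀ᵐ Y ∂m, H541.Hel.Inj (g * Matrix.of Y) := by
  filter_upwards [hm.gen g g' hg] with Y hY
  exact inj_of_det hj hY

/-- **The upper bound in the mean** -/
theorem upper {hj : j ≤ n} {m : Measure (Fin n → Fin j → k)} (hm : Frm hj m)
    {μ : Measure (Fin j → k)} [μ.IsAddHaarMeasure] {t : k} {α : ℝ} (hs : Sc μ t α) (C : ℝ)
    {ε : ℝ} (hε : 0 < ε) : ∃ R : ℝ, 0 < R ∧ ∀ (g : Matrix (Fin n) (Fin n) k) (d : Fin n → k)
      (U U' V V' : Matrix (Fin n) (Fin n) k), (∀ x y, ‖U x y‖ ≤ C) → (∀ x y, ‖U' x y‖ ≤ C) →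
      (∀ x y, ‖V x y‖ ≤ C) → (∀ x y, ‖V' x y‖ ≤ C) → U * U' = 1 → V * V' = 1 →
      (∀ i, d i ≠ 0) → (∀ i l : Fin n, i ≤ l → ‖d l‖ ≤ ‖d i‖) → g = U * diagonal d * V →
      (∃ l l' : Fin n, l ≤ l' ∧ (l' : ℕ) < j ∧ R * ‖d l'‖ ≤ ‖d l‖) →
      ∫ Y, KY μ t α (g * Matrix.of Y) (Matrix.of Y) ∂m ≤ ε := by
  have := hm.prob
  obtain ⟨R, hR, h⟩ := upper_m hm hs C (half_pos hε) (half_pos hε)
  refine ⟨R, hR, fun g d U U' V V' hU hU' hV hV' uu vv hne hd e hl => ?_⟩
  obtain ⟨l, l', hll, hl', hlR⟩ := hl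
  have hn : 0 < n := (Nat.zero_le _).trans_lt l.2
  have hj0 : 0 < j := (Nat.zero_le _).trans_lt hl'
  haveI : Nonempty (Fin j) := ⟨⟨0, hj0⟩⟩
  have hb := h g d U U' V V' hU hU' hV hV' uu vv hne hd e ⟨0, hn⟩ ⟨j - 1, by omega⟩ rfl
    (by simp only; omega) (by
      have h1 : ‖d ⟨j - 1, by omega⟩‖ ≤ ‖d l'‖ := hd _ _ (by rw [Fin.le_def]; simp only; omega)
      have h2 : ‖d l‖ ≤ ‖d ⟨0, hn⟩‖ := hd _ _ (by rw [Fin.le_def]; simp)
      calc R * ‖d ⟨j - 1, by omega⟩‖ ≤ R * ‖d l'‖ := mul_le_mul_of_nonneg_left h1 hR.le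
        _ ≤ ‖d l‖ := hlR
        _ ≤ _ := h2)
  have hgg : g * (V' * diagonal (fun i => (d i)⁻¹) * U') = 1 := by
    have e3 : diagonal d * diagonal (fun i => (d i)⁻¹) = (1 : Matrix (Fin n) (Fin n) k) := by
      rw [diagonal_mul_diagonal, ← diagonal_one]
      exact congrArg diagonal (funext fun i => mul_inv_cancel₀ (hne i))
    rw [e]
    calc U * diagonal d * V * (V' * diagonal (fun i => (d i)⁻¹) * U')
        = U * (diagonal d * (V * V') * diagonal (fun i => (d i)⁻¹)) * U' := by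
          simp only [Matrix.mul_assoc]
      _ = 1 := by rw [vv, Matrix.mul_one, e3, Matrix.mul_one, uu]
  set S : Set (Fin n → Fin j → k) :=
    toMeasurable m {Y | ε / 2 < KY μ t α (g * Matrix.of Y) (Matrix.of Y)}
  have hS : MeasurableSet S := measurableSet_toMeasurable _ _
  have hSm : m S ≤ ENNReal.ofReal (ε / 2) := by rw [measure_toMeasurable]; exact hb
  have hf : ∀ᵐ Y ∂m, KY μ t α (g * Matrix.of Y) (Matrix.of Y) ≤
      ε / 2 + S.indicator (fun _ => (1 : ℝ)) Y := by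
    filter_upwards [ae_inj hm g hgg, ae_inj hm 1 (Matrix.mul_one 1)] with Y h1 h2
    rw [Matrix.one_mul] at h2
    by_cases hY : Y ∈ S
    · rw [Set.indicator_of_mem hY]
      have := H541.Hel.KY_le_one (μ := μ) (t := t) (α := α) h1 h2
      linarith
    · rw [Set.indicator_of_notMem hY, add_zero]
      by_contra hc
      exact hY (subset_toMeasurable _ _ (not_le.1 hc))
  have hi : Integrable (fun Y => ε / 2 + S.indicator (fun _ => (1 : ℝ)) Y) m :=
    (integrable_const _).add ((integrable_const _).indicator hS)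
  calc ∫ Y, KY μ t α (g * Matrix.of Y) (Matrix.of Y) ∂m
      ≤ ∫ Y, (ε / 2 + S.indicator (fun _ => (1 : ℝ)) Y) ∂m :=
        integral_mono_of_nonneg (Filter.Eventually.of_forall fun Y => H541.Hel.KY_nonneg _ _) hi hf
    _ = ε / 2 + m.real S := by
        rw [integral_add (integrable_const _) ((integrable_const _).indicator hS),
          integral_indicator hS]
        simp
    _ ≤ ε / 2 + ε / 2 := by
        gcongr
        exact ENNReal.toReal_le_of_le_ofReal (by linarith) hSm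
    _ = ε := by ring

/-- in the letters of `kl`, all powers `p ≥ 1` -/
theorem upper_kl {hj : j ≤ n} {m : Measure (Fin n → Fin j → k)} (hm : Frm hj m)
    {μ : Measure (Fin j → k)} [μ.IsAddHaarMeasure] {t : k} {α : ℝ} (hs : Sc μ t α) (C : ℝ)
    {ε : ℝ} (hε : 0 < ε) : ∃ R : ℝ, 0 < R ∧ ∀ (g : Matrix (Fin n) (Fin n) k) (d : Fin n → k)
      (U U' V V' : Matrix (Fin n) (Fin n) k), (∀ x y, ‖U x y‖ ≤ C) → (∀ x y, ‖U' x y‖ ≤ C) →
      (∀ x y, ‖V x y‖ ≤ C) → (∀ x y, ‖V' x y‖ ≤ C) → U * U' = 1 → V * V' = 1 →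
      (∀ i, d i ≠ 0) → (∀ i l : Fin n, i ≤ l → ‖d l‖ ≤ ‖d i‖) → g = U * diagonal d * V →
      (∃ l l' : Fin n, l ≤ l' ∧ (l' : ℕ) < j ∧ R * ‖d l'‖ ≤ ‖d l‖) →
      kl μ t α m (fun Y => Matrix.of Y) 1 g 1 ≤ ε := by
  obtain ⟨R, hR, h⟩ := upper hm hs C hε
  refine ⟨R, hR, fun g d U U' V V' hU hU' hV hV' uu vv hne hd e hl => ?_⟩
  refine le_trans (le_of_eq ?_) (h g d U U' V V' hU hU' hV hV' uu vv hne hd e hl)
  rw [kl]
  simp only [pow_one, Matrix.one_mul]

/-- the frames as a random frame -/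
theorem rf {hj : j ≤ n} {m : Measure (Fin n → Fin j → k)} (hm : Frm hj m) :
    RF m (fun Y : Fin n → Fin j → k => (Matrix.of Y : Matrix (Fin n) (Fin j) k)) where
  cont := continuous_id
  inj := by
    filter_upwards [ae_inj hm 1 (Matrix.mul_one 1)] with Y h2
    rw [Matrix.one_mul] at h2
    exact h2

/-- the mean of `(1 - κ) ^ q` for large `q`, if `κ ≥ δ` for most frames -/
theorem um_le {hj : j ≤ n} {m : Measure (Fin n → Fin j → k)} (hm : Frm hj m)
    {μ : Measure (Fin j → k)} [μ.IsAddHaarMeasure] {t : k} {α : ℝ}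
    {g g' : Matrix (Fin n) (Fin n) k} (hg : g * g' = 1) {δ η : ℝ} (hη : 0 ≤ η)
    (h : m {Y | KY μ t α (g * Matrix.of Y) (Matrix.of Y) < δ} ≤ ENNReal.ofReal η) (q : ℕ) :
    um μ t α m (fun Y => Matrix.of Y) q g 1 ≤ (1 - min δ 1) ^ q + η := by
  have := hm.prob
  set S : Set (Fin n → Fin j → k) :=
    toMeasurable m {Y | KY μ t α (g * Matrix.of Y) (Matrix.of Y) < δ}
  have hS : MeasurableSet S := measurableSet_toMeasurable _ _
  have hSm : m S ≤ ENNReal.ofReal η := by rw [measure_toMeasurable]; exact h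
  have h01 : 0 ≤ 1 - min δ 1 := by linarith [min_le_right δ 1]
  have hf : ∀ᵐ Y ∂m, (1 - KY μ t α (g * Matrix.of Y) ((1 : Matrix (Fin n) (Fin n) k) * Matrix.of Y)) ^ q ≤
      (1 - min δ 1) ^ q + S.indicator (fun _ => (1 : ℝ)) Y := by
    filter_upwards [ae_inj hm g hg, ae_inj hm 1 (Matrix.mul_one 1)] with Y h1 h2
    rw [Matrix.one_mul] at h2 ⊢
    have h3 := H541.Hel.KY_le_one (μ := μ) (t := t) (α := α) h1 h2
    have h4 := H541.Hel.KY_nonneg (μ := μ) (t := t) (α := α) (g * Matrix.of Y) (Matrix.of Y)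
    by_cases hY : Y ∈ S
    · rw [Set.indicator_of_mem hY]
      have h5 : (1 - KY μ t α (g * Matrix.of Y) (Matrix.of Y)) ^ q ≤ 1 :=
        pow_le_one₀ (by linarith) (by linarith)
      have h6 : 0 ≤ (1 - min δ 1) ^ q := pow_nonneg h01 _
      linarith
    · rw [Set.indicator_of_notMem hY, add_zero]
      have h7 : δ ≤ KY μ t α (g * Matrix.of Y) (Matrix.of Y) := by
        by_contra hc
        exact hY (subset_toMeasurable _ _ (not_le.1 hc))
      exact pow_le_pow_left₀ (by linarith) (by linarith [min_le_left δ 1]) _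
  have h0 : ∀ᵐ Y ∂m, 0 ≤ (1 - KY μ t α (g * Matrix.of Y) ((1 : Matrix (Fin n) (Fin n) k) * Matrix.of Y)) ^ q := by
    filter_upwards [ae_inj hm g hg, ae_inj hm 1 (Matrix.mul_one 1)] with Y h1 h2
    rw [Matrix.one_mul] at h2 ⊢
    have h3 := H541.Hel.KY_le_one (μ := μ) (t := t) (α := α) h1 h2
    exact pow_nonneg (by linarith) _
  have hi : Integrable (fun Y => (1 - min δ 1) ^ q + S.indicator (fun _ => (1 : ℝ)) Y) m :=
    (integrable_const _).add ((integrable_const _).indicator hS)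
  calc um μ t α m (fun Y => Matrix.of Y) q g 1
      ≤ ∫ Y, ((1 - min δ 1) ^ q + S.indicator (fun _ => (1 : ℝ)) Y) ∂m :=
        integral_mono_of_nonneg h0 hi hf
    _ = (1 - min δ 1) ^ q + m.real S := by
        rw [integral_add (integrable_const _) ((integrable_const _).indicator hS),
          integral_indicator hS]
        simp
    _ ≤ (1 - min δ 1) ^ q + η := by
        gcongr
        exact ENNReal.toReal_le_of_le_ofReal hη hSm

/-- **The test from below**: bounded ratios of the first `j` entries, `q` large. -/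
theorem um_small {hj : j ≤ n} {m : Measure (Fin n → Fin j → k)} (hm : Frm hj m)
    {μ : Measure (Fin j → k)} [μ.IsAddHaarMeasure] {t : k} {α : ℝ} (hs : Sc μ t α) (C R0 : ℝ)
    {ε : ℝ} (hε : 0 < ε) : ∃ q₀ : ℕ, ∀ q, q₀ ≤ q → ∀ (g : Matrix (Fin n) (Fin n) k)
      (d : Fin n → k) (U U' V V' : Matrix (Fin n) (Fin n) k), (∀ x y, ‖U x y‖ ≤ C) →
      (∀ x y, ‖U' x y‖ ≤ C) → (∀ x y, ‖V x y‖ ≤ C) → (∀ x y, ‖V' x y‖ ≤ C) → U * U' = 1 →
      V * V' = 1 → (∀ i, d i ≠ 0) → (∀ i l : Fin n, i ≤ l → ‖d l‖ ≤ ‖d i‖) →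
      g = U * diagonal d * V → ∀ a b : Fin n, (a : ℕ) = 0 → (b : ℕ) + 1 = j →
      ‖d a‖ ≤ R0 * ‖d b‖ → um μ t α m (fun Y => Matrix.of Y) q g 1 ≤ ε := by
  obtain ⟨δ, hδ, h⟩ := lower hm hs C R0 (half_pos hε)
  have h1 : 1 - min δ 1 < 1 := by
    have : 0 < min δ 1 := lt_min hδ one_pos
    linarith
  have h01 : 0 ≤ 1 - min δ 1 := by linarith [min_le_right δ 1]
  obtain ⟨q₀, hq₀⟩ := exists_pow_lt_of_lt_one (half_pos hε) h1
  refine ⟨q₀, fun q hq g d U U' V V' hU hU' hV hV' uu vv hne hd e a b ha hb hR => ?_⟩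
  have hgg : g * (V' * diagonal (fun i => (d i)⁻¹) * U') = 1 := by
    have e3 : diagonal d * diagonal (fun i => (d i)⁻¹) = (1 : Matrix (Fin n) (Fin n) k) := by
      rw [diagonal_mul_diagonal, ← diagonal_one]
      exact congrArg diagonal (funext fun i => mul_inv_cancel₀ (hne i))
    rw [e]
    calc U * diagonal d * V * (V' * diagonal (fun i => (d i)⁻¹) * U')
        = U * (diagonal d * (V * V') * diagonal (fun i => (d i)⁻¹)) * U' := by
          simp only [Matrix.mul_assoc]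
      _ = 1 := by rw [vv, Matrix.mul_one, e3, Matrix.mul_one, uu]
  have h2 := um_le hm hgg (half_pos hε).le
    (h g d U U' V V' hU hU' hV hV' uu vv hne hd e a b ha hb hR) q
  have h3 : (1 - min δ 1) ^ q ≤ (1 - min δ 1) ^ q₀ := pow_le_pow_of_le_one h01 h1.le hq
  linarith

/-- **The test from above**: one large ratio among the first `j` entries. -/
theorem um_large {hj : j ≤ n} {m : Measure (Fin n → Fin j → k)} (hm : Frm hj m)
    {μ : Measure (Fin j → k)} [μ.IsAddHaarMeasure] {t : k} {α : ℝ} (hs : Sc μ t α) (C : ℝ)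
    (q : ℕ) {ε : ℝ} (hε : 0 < ε) : ∃ R : ℝ, 0 < R ∧ ∀ (g : Matrix (Fin n) (Fin n) k)
      (d : Fin n → k) (U U' V V' : Matrix (Fin n) (Fin n) k), (∀ x y, ‖U x y‖ ≤ C) →
      (∀ x y, ‖U' x y‖ ≤ C) → (∀ x y, ‖V x y‖ ≤ C) → (∀ x y, ‖V' x y‖ ≤ C) → U * U' = 1 →
      V * V' = 1 → (∀ i, d i ≠ 0) → (∀ i l : Fin n, i ≤ l → ‖d l‖ ≤ ‖d i‖) →
      g = U * diagonal d * V → (∃ l l' : Fin n, l ≤ l' ∧ (l' : ℕ) < j ∧ R * ‖d l'‖ ≤ ‖d l‖) →
      1 - ε ≤ um μ t α m (fun Y => Matrix.of Y) q g 1 := by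
  have := hm.prob
  obtain ⟨R, hR, h⟩ := upper_kl hm hs C (show 0 < ε / (q + 1) by positivity)
  refine ⟨R, hR, fun g d U U' V V' hU hU' hV hV' uu vv hne hd e hl => ?_⟩
  have hj0 : 0 < j := by
    obtain ⟨l, l', -, h1, -⟩ := hl
    exact (Nat.zero_le _).trans_lt h1
  haveI : Nonempty (Fin j) := ⟨⟨0, hj0⟩⟩
  have hgg : V' * diagonal (fun i => (d i)⁻¹) * U' * g = 1 := by
    have e3 : diagonal (fun i => (d i)⁻¹) * diagonal d = (1 : Matrix (Fin n) (Fin n) k) := by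
      rw [diagonal_mul_diagonal, ← diagonal_one]
      exact congrArg diagonal (funext fun i => inv_mul_cancel₀ (hne i))
    rw [e]
    calc V' * diagonal (fun i => (d i)⁻¹) * U' * (U * diagonal d * V)
        = V' * (diagonal (fun i => (d i)⁻¹) * (U' * U) * diagonal d) * V := by
          simp only [Matrix.mul_assoc]
      _ = 1 := by
          rw [mul_eq_one_comm.mp uu, Matrix.mul_one, e3, Matrix.mul_one, mul_eq_one_comm.mp vv]
  have h1 := um_ge (rf hm) hs (H100.Ker.inj_of_inv hgg)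
    (H100.Ker.inj_of_inv (A := (1 : Matrix (Fin n) (Fin n) k)) (A' := 1) (Matrix.mul_one 1)) q
  have h2 := h g d U U' V V' hU hU' hV hV' uu vv hne hd e hl
  have h3 : (q : ℝ) * kl μ t α m (fun Y => Matrix.of Y) 1 g 1 ≤ q * (ε / (q + 1)) :=
    mul_le_mul_of_nonneg_left h2 (by positivity)
  have h4 : (q : ℝ) * (ε / (q + 1)) ≤ ε := by
    rw [mul_div_assoc', div_le_iff₀ (by positivity)]
    nlinarith
  linarith

end Vale.Agent.P092.H85.KerU
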