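import Mathlib

/-!
P092, TEAM W (helper85): abstract W-step, part 1: Borel calculi and their uniqueness.
-/

set_option linter.all false

namespace Vale.Agent.P092.H85.W

open MeasureTheory Filter Topology ContinuousLinearMap
open scoped InnerProductSpace ComplexConjugate BoundedContinuousFunction

/-- the unit circle, as a subset of `ℂ` -/
abbrev Sp : Type := Metric.sphere (0 : ℂ) 1

instance : PolishSpace Sp := Metric.isClosed_sphere.polishSpace

/-- bounded measurable functions -/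
structure Bf {S : Type*} [MeasurableSpace S] (f : S → ℂ) : Prop where
  meas : Measurable f
  bdd : ∃ C : ℝ, ∀ x, ‖f x‖ ≤ C

namespace Bf

variable {S E : Type*} [MeasurableSpace S] [MeasurableSpace E] {f g : S → ℂ}

theorem mul (hf : Bf f) (hg : Bf g) : Bf (fun x => f x * g x) := by
  obtain ⟨C, hC⟩ := hf.bdd
  obtain ⟨D, hD⟩ := hg.bdd
  refine ⟨hf.meas.mul hg.meas, C * D, fun x => ?_⟩
  rw [norm_mul]
  exact mul_le_mul (hC x) (hD x) (norm_nonneg _) ((norm_nonneg _).trans (hC x))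

theorem sub (hf : Bf f) (hg : Bf g) : Bf (fun x => f x - g x) := by
  obtain ⟨C, hC⟩ := hf.bdd
  obtain ⟨D, hD⟩ := hg.bdd
  exact ⟨hf.meas.sub hg.meas, C + D, fun x => (norm_sub_le _ _).trans (add_le_add (hC x) (hD x))⟩

theorem add (hf : Bf f) (hg : Bf g) : Bf (fun x => f x + g x) := by
  obtain ⟨C, hC⟩ := hf.bdd
  obtain ⟨D, hD⟩ := hg.bdd
  exact ⟨hf.meas.add hg.meas, C + D, fun x => (norm_add_le _ _).trans (add_le_add (hC x) (hD x))⟩

theorem cj (hf : Bf f) : Bf (fun x => starRingEnd ℂ (f x)) := by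
  obtain ⟨C, hC⟩ := hf.bdd
  refine ⟨?_, C, fun x => by simpa using hC x⟩
  exact (Complex.continuous_conj.measurable).comp hf.meas

theorem const (c : ℂ) : Bf (fun _ : S => c) := ⟨measurable_const, ‖c‖, fun _ => le_rfl⟩

theorem comp (hf : Bf f) {h : E → S} (hh : Measurable h) : Bf (fun x => f (h x)) :=
  ⟨hf.meas.comp hh, hf.bdd.imp fun _ hC x => hC _⟩

theorem smul (c : ℂ) (hf : Bf f) : Bf (fun x => c * f x) := (const c).mul hf

theorem integrable (hf : Bf f) (μ : Measure S) [IsFiniteMeasure μ] : Integrable f μ := by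
  obtain ⟨C, hC⟩ := hf.bdd
  exact Integrable.of_bound hf.meas.aestronglyMeasurable C (Eventually.of_forall hC)

theorem ind {A : Set S} (hA : MeasurableSet A) : Bf (A.indicator (fun _ => (1 : ℂ))) := by
  refine ⟨measurable_const.indicator hA, 1, fun x => ?_⟩
  by_cases hx : x ∈ A <;> simp [hx]

theorem circle {e : S → Sp} (he : Measurable e) : Bf (fun x => (e x : ℂ)) :=
  ⟨measurable_subtype_coe.comp he, 1, fun x => by simp⟩

end Bf

variable {K : Type*} [NormedAddCommGroup K] [InnerProductSpace ℂ K] [CompleteSpace K]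

/-- a Borel calculus on `S` -/
structure Cal {S : Type*} [MeasurableSpace S] (J : (S → ℂ) → (K →L[ℂ] K)) : Prop where
  law : ∀ ξ : K, ∃ μ : Measure S, IsFiniteMeasure μ ∧
    ∀ f, Bf f → ⟪ξ, J f ξ⟫_ℂ = ∫ x, f x ∂μ
  mul : ∀ f g, Bf f → Bf g → J (fun x => f x * g x) = J f * J g
  star : ∀ f, Bf f → adjoint (J f) = J (fun x => starRingEnd ℂ (f x))
  one : J (fun _ => 1) = 1

theorem ext_quad {S T : K →L[ℂ] K} (h : ∀ x, ⟪x, S x⟫_ℂ = ⟪x, T x⟫_ℂ) : S = T := by
  have h1 : (S : K →ₗ[ℂ] K) = (T : K →ₗ[ℂ] K) := by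
    rw [← ext_inner_map]
    intro x
    have h2 := congrArg (starRingEnd ℂ) (h x)
    rwa [inner_conj_symm, inner_conj_symm] at h2
  ext x
  exact congrArg (fun L : K →ₗ[ℂ] K => L x) h1

namespace Cal

variable {S : Type*} [MeasurableSpace S] {J : (S → ℂ) → (K →L[ℂ] K)}

theorem comm (h : Cal J) {f g : S → ℂ} (hf : Bf f) (hg : Bf g) : J f * J g = J g * J f := by
  rw [← h.mul f g hf hg, ← h.mul g f hg hf]
  congr 1
  ext x
  ring

theorem sub (h : Cal J) {f g : S → ℂ} (hf : Bf f) (hg : Bf g) :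
    J (fun x => f x - g x) = J f - J g := by
  refine ext_quad fun ξ => ?_
  obtain ⟨μ, hμ, hl⟩ := h.law ξ
  rw [sub_apply, inner_sub_right, hl _ hf, hl _ hg, hl _ (hf.sub hg),
    integral_sub (hf.integrable μ) (hg.integrable μ)]

theorem smul (h : Cal J) (c : ℂ) {f : S → ℂ} (hf : Bf f) :
    J (fun x => c * f x) = c • J f := by
  refine ext_quad fun ξ => ?_
  obtain ⟨μ, hμ, hl⟩ := h.law ξ
  rw [smul_apply, inner_smul_right, hl _ hf, hl _ (hf.smul c), integral_const_mul]

theorem norm_sq (h : Cal J) {f : S → ℂ} (hf : Bf f) {ξ : K} {μ : Measure S} [IsFiniteMeasure μ]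
    (hl : ∀ f, Bf f → ⟪ξ, J f ξ⟫_ℂ = ∫ x, f x ∂μ) :
    ‖J f ξ‖ ^ 2 = ∫ x, ‖f x‖ ^ 2 ∂μ := by
  have h1 : (⟪J f ξ, J f ξ⟫_ℂ) = ∫ x, (starRingEnd ℂ (f x)) * f x ∂μ := by
    rw [← hl _ (hf.cj.mul hf), h.mul _ _ hf.cj hf, ← h.star f hf, mul_apply_eq_comp,
      ContinuousLinearMap.adjoint_inner_right]
  rw [inner_self_eq_norm_sq_to_K] at h1
  have h2 : (∫ x, (starRingEnd ℂ (f x)) * f x ∂μ) = ((∫ x, ‖f x‖ ^ 2 ∂μ : ℝ) : ℂ) := by
    rw [← integral_complex_ofReal]
    refine integral_congr_ae (Eventually.of_forall fun x => ?_)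
    simp only
    rw [Complex.conj_mul']
    push_cast
    rfl
  rw [h2] at h1
  have h3 : ((‖J f ξ‖ ^ 2 : ℝ) : ℂ) = ((∫ x, ‖f x‖ ^ 2 ∂μ : ℝ) : ℂ) := by
    rw [← h1]
    push_cast
    rfl
  exact Complex.ofReal_injective h3

theorem tendsto (h : Cal J) {f : ℕ → S → ℂ} {g : S → ℂ} (hf : ∀ n, Bf (f n)) (hg : Bf g) {C : ℝ}
    (hC : ∀ n x, ‖f n x‖ ≤ C) (hp : ∀ x, Tendsto (fun n => f n x) atTop (𝓝 (g x))) (ξ : K) :
    Tendsto (fun n => J (f n) ξ) atTop (𝓝 (J g ξ)) := by
  obtain ⟨μ, hμ, hl⟩ := h.law ξ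
  rw [tendsto_iff_norm_sub_tendsto_zero]
  have h1 : ∀ n, ‖J (f n) ξ - J g ξ‖ ^ 2 = ∫ x, ‖f n x - g x‖ ^ 2 ∂μ := fun n => by
    rw [← h.norm_sq ((hf n).sub hg) hl, h.sub (hf n) hg, sub_apply]
  have h2 : Tendsto (fun n => ∫ x, ‖f n x - g x‖ ^ 2 ∂μ) atTop (𝓝 (∫ x, (0 : ℝ) ∂μ)) := by
    obtain ⟨D, hD⟩ := hg.bdd
    refine tendsto_integral_of_dominated_convergence (fun _ => (C + D) ^ 2)
      (fun n => ?_) (integrable_const _) (fun n => Eventually.of_forall fun x => ?_)
      (Eventually.of_forall fun x => ?_)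
    · exact (((hf n).meas.sub hg.meas).norm.pow_const 2).aestronglyMeasurable
    · rw [Real.norm_of_nonneg (by positivity)]
      exact pow_le_pow_left₀ (norm_nonneg _)
        ((norm_sub_le _ _).trans (add_le_add (hC n x) (hD x))) 2
    · have := ((hp x).sub_const (g x)).norm.pow 2
      simpa using this
  simp only [integral_zero] at h2
  have h3 : Tendsto (fun n => Real.sqrt (‖J (f n) ξ - J g ξ‖ ^ 2)) atTop (𝓝 (Real.sqrt 0)) := by
    refine (Real.continuous_sqrt.tendsto 0).comp ?_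
    simpa only [h1] using h2
  simpa [Real.sqrt_sq (norm_nonneg _)] using h3

theorem unit (h : Cal J) {f : S → ℂ} (hf : Bf f) (h1 : ∀ x, ‖f x‖ = 1) :
    adjoint (J f) * J f = 1 ∧ J f * adjoint (J f) = 1 := by
  have e1 : J (fun x => starRingEnd ℂ (f x) * f x) = 1 := by
    rw [← h.one]
    congr 1
    ext x
    rw [Complex.conj_mul', h1 x]
    norm_num
  have e2 : J (fun x => f x * starRingEnd ℂ (f x)) = 1 := by
    rw [← h.one]
    congr 1
    ext x
    rw [Complex.mul_conj', h1 x]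
    norm_num
  constructor
  · rw [h.star f hf, ← h.mul _ _ hf.cj hf, e1]
  · rw [h.star f hf, ← h.mul _ _ hf hf.cj, e2]

/-- functions of a variable -/
theorem map {E : Type*} [MeasurableSpace E] (h : Cal J) {t : S → E} (ht : Measurable t) :
    Cal (fun f : E → ℂ => J (fun x => f (t x))) where
  law ξ := by
    obtain ⟨μ, hμ, hl⟩ := h.law ξ
    refine ⟨μ.map t, Measure.isFiniteMeasure_map μ t, fun f hf => ?_⟩
    rw [hl _ (hf.comp ht), integral_map ht.aemeasurable hf.meas.aestronglyMeasurable]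
  mul f g hf hg := h.mul _ _ (hf.comp ht) (hg.comp ht)
  star f hf := h.star _ (hf.comp ht)
  one := h.one

/-- conjugation by a unitary -/
theorem cjU (h : Cal J) {U : K →L[ℂ] K} (h1 : adjoint U * U = 1) (h2 : U * adjoint U = 1) :
    Cal (fun f : S → ℂ => U * J f * adjoint U) where
  law ξ := by
    obtain ⟨μ, hμ, hl⟩ := h.law (adjoint U ξ)
    refine ⟨μ, hμ, fun f hf => ?_⟩
    rw [← hl f hf]
    simp only [mul_apply_eq_comp]
    rw [← ContinuousLinearMap.adjoint_inner_left]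
  mul f g hf hg := by
    rw [h.mul f g hf hg]
    calc U * (J f * J g) * adjoint U = U * J f * 1 * J g * adjoint U := by
          simp only [mul_one, mul_assoc]
      _ = U * J f * (adjoint U * U) * J g * adjoint U := by rw [h1]
      _ = U * J f * adjoint U * (U * J g * adjoint U) := by simp only [mul_assoc]
  star f hf := by
    rw [← h.star f hf]
    change Star.star (U * J f * Star.star U) = U * Star.star (J f) * Star.star U
    simp only [star_mul, star_star, mul_assoc]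
  one := by rw [h.one, mul_one, h2]

/-- two calculi with the same laws agree -/
theorem ext_law {J' : (S → ℂ) → (K →L[ℂ] K)}
    (hl : ∀ ξ (μ ν : Measure S), IsFiniteMeasure μ → IsFiniteMeasure ν →
      (∀ f, Bf f → ⟪ξ, J f ξ⟫_ℂ = ∫ x, f x ∂μ) → (∀ f, Bf f → ⟪ξ, J' f ξ⟫_ℂ = ∫ x, f x ∂ν) →
      μ = ν) (h : Cal J) (h' : Cal J') {f : S → ℂ} (hf : Bf f) : J f = J' f := by
  refine ext_quad fun ξ => ?_
  obtain ⟨μ, hμ, h1⟩ := h.law ξ
  obtain ⟨ν, hν, h2⟩ := h'.law ξ
  rw [h1 f hf, h2 f hf, hl ξ μ ν hμ hν h1 h2]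

end Cal

/-! ### uniqueness of measures -/

theorem meas_ext_circle {μ ν : Measure (ℕ → Sp)} [IsFiniteMeasure μ] [IsFiniteMeasure ν]
    (M : ((ℕ → Sp) → ℂ) → Prop) (h1 : M (fun _ => 1))
    (hm : ∀ f, M f → ∀ i : ℕ, M (fun y => f y * (y i : ℂ)))
    (hs : ∀ f, M f → ∀ i : ℕ, M (fun y => f y * starRingEnd ℂ (y i : ℂ)))
    (h : ∀ f, M f → ∫ y, f y ∂μ = ∫ y, f y ∂ν) : μ = ν := by
  let cd : ℕ → ((ℕ → Sp) →ᵇ ℂ) := fun i =>
    BoundedContinuousFunction.mkOfCompact ⟨fun y => (y i : ℂ), by fun_prop⟩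
  have hcd : ∀ i y, cd i y = (y i : ℂ) := fun i y => rfl
  let A : StarSubalgebra ℂ ((ℕ → Sp) →ᵇ ℂ) := StarAlgebra.adjoin ℂ (Set.range cd)
  refine ext_of_forall_mem_subalgebra_integral_eq_of_polish (𝕜 := ℂ) (A := A) ?_ ?_
  · intro x y hxy
    obtain ⟨i, hi⟩ := Function.ne_iff.1 hxy
    refine ⟨fun z => (z i : ℂ), ⟨(cd i : (ℕ → Sp) →ᵇ ℂ).toContinuousMap, ?_, rfl⟩, ?_⟩
    · exact ⟨cd i, StarAlgebra.subset_adjoin ℂ _ ⟨i, rfl⟩, rfl⟩
    · exact fun e => hi (Subtype.ext e)
  · intro g hg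
    have hg' : g ∈ Submodule.span ℂ
        (Submonoid.closure (Set.range cd ∪ star (Set.range cd)) : Set ((ℕ → Sp) →ᵇ ℂ)) := by
      rw [← StarAlgebra.adjoin_eq_span]
      exact hg
    refine Submodule.span_induction (p := fun g _ => ∫ y, g y ∂μ = ∫ y, g y ∂ν)
      ?_ ?_ ?_ ?_ hg'
    · intro m hm0
      have key : ∀ f, M f → M (fun y => f y * m y) := by
        refine Submonoid.closure_induction
          (motive := fun m _ => ∀ f, M f → M (fun y => f y * m y)) ?_ ?_ ?_ hm0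
        · rintro m (⟨i, rfl⟩ | hms) f hf
          · exact hm f hf i
          · obtain ⟨i, hi⟩ := hms
            have : ∀ y, m y = starRingEnd ℂ (y i : ℂ) := by
              intro y
              have := congrArg (fun t : (ℕ → Sp) →ᵇ ℂ => starRingEnd ℂ (t y)) hi
              simpa [hcd] using this.symm
            simp only [this]
            exact hs f hf i
        · intro f hf
          simpa using hf
        · intro a b _ _ ha hb f hf
          have := hb _ (ha f hf)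
          simpa [mul_assoc] using this
      have := h _ (key _ h1)
      simpa using this
    · simp
    · intro a b _ _ ha hb
      simp only [BoundedContinuousFunction.coe_add, Pi.add_apply]
      rw [integral_add (a.integrable μ) (b.integrable μ),
        integral_add (a.integrable ν) (b.integrable ν), ha, hb]
    · intro c a _ ha
      simp only [BoundedContinuousFunction.coe_smul, smul_eq_mul]
      rw [integral_const_mul, integral_const_mul, ha]

variable {E : Type*} [MeasurableSpace E]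

/-- a sequence of circle valued functions which embeds `E` -/
def Emb (e : ℕ → E → Sp) : Prop := MeasurableEmbedding (fun x i => e i x)

theorem Emb.meas {e : ℕ → E → Sp} (he : Emb e) (i : ℕ) : Measurable (e i) :=
  (measurable_pi_apply i).comp (MeasurableEmbedding.measurable he)

/-- finite measures on `E` are determined by the monomials -/
theorem meas_ext {e : ℕ → E → Sp} (he : Emb e) {μ ν : Measure E} [IsFiniteMeasure μ]
    [IsFiniteMeasure ν] (M : (E → ℂ) → Prop) (h1 : M (fun _ => 1))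
    (hm : ∀ f, M f → ∀ i, M (fun y => f y * (e i y : ℂ)))
    (hs : ∀ f, M f → ∀ i, M (fun y => f y * starRingEnd ℂ (e i y : ℂ)))
    (h : ∀ f, M f → ∫ y, f y ∂μ = ∫ y, f y ∂ν) : μ = ν := by
  have hT := MeasurableEmbedding.measurable he
  haveI := Measure.isFiniteMeasure_map μ (fun x i => e i x)
  haveI := Measure.isFiniteMeasure_map ν (fun x i => e i x)
  have key : μ.map (fun x i => e i x) = ν.map (fun x i => e i x) := by
    refine meas_ext_circle (fun f => Measurable f ∧ M (fun x => f (fun i => e i x))) ?_ ?_ ?_ ?_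
    · exact ⟨measurable_const, h1⟩
    · rintro f ⟨hf, hf'⟩ i
      exact ⟨hf.mul (measurable_subtype_coe.comp (measurable_pi_apply i)), hm _ hf' i⟩
    · rintro f ⟨hf, hf'⟩ i
      refine ⟨hf.mul ?_, hs _ hf' i⟩
      exact (Complex.continuous_conj.measurable).comp
        (measurable_subtype_coe.comp (measurable_pi_apply i))
    · rintro f ⟨hf, hf'⟩
      rw [integral_map hT.aemeasurable hf.aestronglyMeasurable,
        integral_map hT.aemeasurable hf.aestronglyMeasurable]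
      exact h _ hf'
  ext B hB
  have e1 : B = (fun x i => e i x) ⁻¹' ((fun x i => e i x) '' B) :=
    (Set.preimage_image_eq B (MeasurableEmbedding.injective he)).symm
  have hB' := (MeasurableEmbedding.measurableSet_image he).2 hB
  rw [e1, ← Measure.map_apply hT hB', ← Measure.map_apply hT hB', key]

/-- two calculi which agree on the `e i` agree -/
theorem Cal.ext_fam {e : ℕ → E → Sp} (he : Emb e) {J J' : (E → ℂ) → (K →L[ℂ] K)}
    (h : Cal J) (h' : Cal J') (hh : ∀ i, J (fun x => (e i x : ℂ)) = J' (fun x => (e i x : ℂ)))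
    {f : E → ℂ} (hf : Bf f) : J f = J' f := by
  refine Cal.ext_law ?_ h h' hf
  intro ξ μ ν hμ hν h1 h2
  refine meas_ext he (fun f => Bf f ∧ J f = J' f) ?_ ?_ ?_ ?_
  · exact ⟨Bf.const 1, by rw [h.one, h'.one]⟩
  · rintro f ⟨hf, hf'⟩ i
    have hb := Bf.circle (he.meas i)
    exact ⟨hf.mul hb, by rw [h.mul _ _ hf hb, h'.mul _ _ hf hb, hf', hh i]⟩
  · rintro f ⟨hf, hf'⟩ i
    have hb := Bf.circle (he.meas i)
    refine ⟨hf.mul hb.cj, ?_⟩
    rw [h.mul _ _ hf hb.cj, h'.mul _ _ hf hb.cj, hf', ← h.star _ hb, ← h'.star _ hb, hh i]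
  · rintro f ⟨hf, hf'⟩
    rw [← h1 f hf, ← h2 f hf, hf']

/-- two calculi on a product which agree on functions of the coordinates agree -/
theorem Cal.ext_prod {A B : Type*} [MeasurableSpace A] [MeasurableSpace B]
    {J J' : (A × B → ℂ) → (K →L[ℂ] K)} (h : Cal J) (h' : Cal J')
    (ha : ∀ f, Bf f → J (fun x => f x.1) = J' (fun x => f x.1))
    (hb : ∀ f, Bf f → J (fun x => f x.2) = J' (fun x => f x.2))
    {f : A × B → ℂ} (hf : Bf f) : J f = J' f := by
  refine Cal.ext_law ?_ h h' hf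
  intro ξ μ ν hμ hν h1 h2
  refine Measure.ext_prod fun {s t} hs ht => ?_
  have hs' : MeasurableSet (s ×ˢ t) := hs.prod ht
  have hB : Bf (fun x : A × B => s.indicator (fun _ => (1 : ℂ)) x.1 *
      t.indicator (fun _ => (1 : ℂ)) x.2) :=
    ((Bf.ind hs).comp measurable_fst).mul ((Bf.ind ht).comp measurable_snd)
  have e0 : (fun x : A × B => s.indicator (fun _ => (1 : ℂ)) x.1 *
      t.indicator (fun _ => (1 : ℂ)) x.2) = (s ×ˢ t).indicator (fun _ => (1 : ℂ)) := by
    ext x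
    by_cases h1 : x.1 ∈ s <;> by_cases h2 : x.2 ∈ t <;> simp [Set.indicator, h1, h2]
  have e1 : J (fun x : A × B => s.indicator (fun _ => (1 : ℂ)) x.1 *
      t.indicator (fun _ => (1 : ℂ)) x.2) = J' (fun x : A × B =>
      s.indicator (fun _ => (1 : ℂ)) x.1 * t.indicator (fun _ => (1 : ℂ)) x.2) := by
    rw [h.mul _ _ ((Bf.ind hs).comp measurable_fst) ((Bf.ind ht).comp measurable_snd),
      h'.mul _ _ ((Bf.ind hs).comp measurable_fst) ((Bf.ind ht).comp measurable_snd),
      ha _ (Bf.ind hs), hb _ (Bf.ind ht)]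
  have e2 : ∫ x, (s ×ˢ t).indicator (fun _ => (1 : ℂ)) x ∂μ
      = ∫ x, (s ×ˢ t).indicator (fun _ => (1 : ℂ)) x ∂ν := by
    rw [← e0, ← h1 _ hB, ← h2 _ hB, e1]
  rw [integral_indicator_const _ hs', integral_indicator_const _ hs'] at e2
  have e3 : μ.real (s ×ˢ t) = ν.real (s ×ˢ t) := by
    simpa using e2
  exact (measureReal_eq_measureReal_iff).1 e3

end Vale.Agent.P092.H85.W
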