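import Vale.Agent.P092.H85.W1

/-!
P092, TEAM W (helper85): abstract W-step, part 2: unitaries of a calculus, commutation from a
separating family, the translation `κ`.
-/

set_option linter.all false

namespace Vale.Agent.P092.H85.W

open MeasureTheory Filter Topology ContinuousLinearMap
open scoped InnerProductSpace ComplexConjugate

variable {K : Type*} [NormedAddCommGroup K] [InnerProductSpace ℂ K] [CompleteSpace K]

/-- the unitary operators -/
abbrev UU (K : Type*) [NormedAddCommGroup K] [InnerProductSpace ℂ K] [CompleteSpace K] : Type _ :=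
  unitary (K →L[ℂ] K)

theorem UU.inv_coe (U : UU K) : ((U⁻¹ : UU K) : K →L[ℂ] K) = adjoint (U : K →L[ℂ] K) := rfl

theorem UU.adj_mul (U : UU K) : adjoint (U : K →L[ℂ] K) * (U : K →L[ℂ] K) = 1 :=
  Unitary.coe_star_mul_self U

theorem UU.mul_adj (U : UU K) : (U : K →L[ℂ] K) * adjoint (U : K →L[ℂ] K) = 1 :=
  Unitary.coe_mul_star_self U

/-- `U T U⁻¹ = T'` and commutation -/
theorem UU.conj_eq_iff (U : UU K) (T T' : K →L[ℂ] K) :
    (U : K →L[ℂ] K) * T * adjoint (U : K →L[ℂ] K) = T' ↔ (U : K →L[ℂ] K) * T = T' * U := by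
  constructor
  · intro h
    rw [← h, mul_assoc _ _ (U : K →L[ℂ] K), UU.adj_mul, mul_one]
  · intro h
    rw [h, mul_assoc, UU.mul_adj, mul_one]

theorem UU.norm_map (U : UU K) (ξ : K) : ‖(U : K →L[ℂ] K) ξ‖ = ‖ξ‖ := by
  have h1 : ‖(U : K →L[ℂ] K) ξ‖ ^ 2 = ‖ξ‖ ^ 2 := by
    have h2 : ⟪(U : K →L[ℂ] K) ξ, (U : K →L[ℂ] K) ξ⟫_ℂ = ⟪ξ, ξ⟫_ℂ := by
      rw [← ContinuousLinearMap.adjoint_inner_right, ← mul_apply_eq_comp, UU.adj_mul]
      rfl
    rw [inner_self_eq_norm_sq_to_K, inner_self_eq_norm_sq_to_K] at h2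
    exact_mod_cast h2
  exact (sq_eq_sq₀ (norm_nonneg _) (norm_nonneg _)).1 h1

variable {S : Type*} [MeasurableSpace S] {J : (S → ℂ) → (K →L[ℂ] K)}

/-- unimodular measurable functions -/
structure Um {S : Type*} [MeasurableSpace S] (f : S → ℂ) : Prop where
  meas : Measurable f
  one : ∀ x, ‖f x‖ = 1

theorem Um.bf {f : S → ℂ} (h : Um f) : Bf f := ⟨h.meas, 1, fun x => (h.one x).le⟩

theorem Um.comp {E : Type*} [MeasurableSpace E] {f : S → ℂ} (hf : Um f) {h : E → S}
    (hh : Measurable h) : Um (fun x => f (h x)) := ⟨hf.meas.comp hh, fun x => hf.one _⟩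

theorem Um.circle {e : S → Sp} (he : Measurable e) : Um (fun x => (e x : ℂ)) :=
  ⟨measurable_subtype_coe.comp he, fun x => by simp⟩

/-- the unitary of a unimodular function -/
noncomputable def Cal.un (h : Cal J) {f : S → ℂ} (hf : Um f) : UU K :=
  ⟨J f, Unitary.mem_iff.2 (h.unit hf.bf hf.one)⟩

theorem Cal.un_coe (h : Cal J) {f : S → ℂ} (hf : Um f) : (h.un hf : K →L[ℂ] K) = J f := rfl

/-- conjugation of a calculus by a unitary -/
theorem Cal.cjUU (h : Cal J) (U : UU K) :
    Cal (fun f : S → ℂ => (U : K →L[ℂ] K) * J f * adjoint (U : K →L[ℂ] K)) :=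
  h.cjU (UU.adj_mul U) (UU.mul_adj U)

/-- a unitary which commutes with a separating family of functions of `t` commutes with all
functions of `t` -/
theorem Cal.comm_fam {E : Type*} [MeasurableSpace E] {e : ℕ → E → Sp} (he : Emb e) (h : Cal J)
    {t : S → E} (ht : Measurable t) (U : UU K)
    (hU : ∀ i, Commute (U : K →L[ℂ] K) (J (fun s => (e i (t s) : ℂ)))) {f : E → ℂ} (hf : Bf f) :
    Commute (U : K →L[ℂ] K) (J (fun s => f (t s))) := by
  have h1 : Cal (fun f : E → ℂ => J (fun s => f (t s))) := h.map ht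
  have h2 := h1.cjUU U
  have h3 := Cal.ext_fam he h2 h1 (fun i => ?_) hf
  · exact (UU.conj_eq_iff U _ _).1 h3
  · exact (UU.conj_eq_iff U _ _).2 (hU i)

/-- a unitary which commutes with all functions of `s` and of `t` commutes with all functions of
`(s, t)` -/
theorem Cal.comm_prod {A B : Type*} [MeasurableSpace A] [MeasurableSpace B] (h : Cal J)
    {s : S → A} {t : S → B} (hs : Measurable s) (ht : Measurable t) (U : UU K)
    (h1 : ∀ f : A → ℂ, Bf f → Commute (U : K →L[ℂ] K) (J (fun x => f (s x))))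
    (h2 : ∀ f : B → ℂ, Bf f → Commute (U : K →L[ℂ] K) (J (fun x => f (t x))))
    {f : A × B → ℂ} (hf : Bf f) : Commute (U : K →L[ℂ] K) (J (fun x => f (s x, t x))) := by
  have h3 : Cal (fun f : A × B → ℂ => J (fun x => f (s x, t x))) := h.map (hs.prodMk ht)
  have h4 := h3.cjUU U
  have h5 := Cal.ext_prod h4 h3 (fun f hf => ?_) (fun f hf => ?_) hf
  · exact (UU.conj_eq_iff U _ _).1 h5
  · exact (UU.conj_eq_iff U _ _).2 (h1 f hf)
  · exact (UU.conj_eq_iff U _ _).2 (h2 f hf)

/-- every bounded function is a combination of unimodular ones -/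
theorem Cal.comm_of_um (h : Cal J) {T : K →L[ℂ] K} (hT : ∀ f, Um f → Commute T (J f))
    {f : S → ℂ} (hf : Bf f) : Commute T (J f) := by
  obtain ⟨C, hC⟩ := hf.bdd
  set D : ℝ := |C| + 1 with hD
  have hD0 : 0 < D := by positivity
  have hDC : ∀ x, ‖f x‖ ≤ D := fun x => (hC x).trans ((le_abs_self C).trans (by linarith))
  -- real functions
  have hre : ∀ a : S → ℝ, Measurable a → (∀ x, |a x| ≤ D) → Commute T (J (fun x => (a x : ℂ))) := by
    intro a ha hab
    let u : S → ℂ := fun x => ⟨a x / D, Real.sqrt (1 - (a x / D) ^ 2)⟩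
    have hu1 : ∀ x, (a x / D) ^ 2 ≤ 1 := fun x => by
      rw [sq_le_one_iff_abs_le_one, abs_div, abs_of_pos hD0, div_le_one hD0]
      exact hab x
    have hum : Measurable u := by
      have h1 : Measurable (fun x => a x / D) := ha.div_const D
      have h2 : Measurable (fun x => Real.sqrt (1 - (a x / D) ^ 2)) :=
        (measurable_const.sub (h1.pow_const 2)).sqrt
      have h3 : u = fun x => (((a x / D : ℝ) : ℂ)) +
          ((Real.sqrt (1 - (a x / D) ^ 2) : ℝ) : ℂ) * Complex.I := by
        ext x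
        exact (Complex.mk_eq_add_mul_I _ _)
      rw [h3]
      exact (Complex.measurable_ofReal.comp h1).add
        ((Complex.measurable_ofReal.comp h2).mul_const _)
    have hu : Um u := by
      refine ⟨hum, fun x => ?_⟩
      have h1 : ‖u x‖ ^ 2 = 1 := by
        rw [← Complex.normSq_eq_norm_sq, Complex.normSq_mk, Real.mul_self_sqrt (by linarith [hu1 x])]
        ring
      have h2 := norm_nonneg (u x)
      nlinarith
    have hu' : Um (fun x => starRingEnd ℂ (u x)) :=
      ⟨(Complex.continuous_conj.measurable).comp hum, fun x => by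
        rw [Complex.norm_conj, hu.one x]⟩
    have e : (fun x => (a x : ℂ)) = fun x => ((D / 2 : ℝ) : ℂ) * (u x -
        (((-1 : ℝ) : ℂ) * starRingEnd ℂ (u x))) := by
      ext x
      have h1 : u x + starRingEnd ℂ (u x) = ((2 * (a x / D) : ℝ) : ℂ) := by
        rw [Complex.add_conj]
      rw [show u x - (((-1 : ℝ) : ℂ) * starRingEnd ℂ (u x)) = u x + starRingEnd ℂ (u x) by
        push_cast; ring, h1, ← Complex.ofReal_mul]
      congr 1
      field_simp
    rw [e, h.smul _ (hu.bf.sub (hu'.bf.smul _)), h.sub hu.bf (hu'.bf.smul _), h.smul _ hu'.bf]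
    exact ((hT _ hu).sub_right ((hT _ hu').smul_right _)).smul_right _
  have e : f = fun x => (((f x).re : ℝ) : ℂ) - (-Complex.I) * (((f x).im : ℝ) : ℂ) := by
    ext x
    conv_lhs => rw [← Complex.re_add_im (f x)]
    ring
  have hr : Bf (fun x => (((f x).re : ℝ) : ℂ)) :=
    ⟨Complex.measurable_ofReal.comp (Complex.measurable_re.comp hf.meas), D, fun x => by
      rw [Complex.norm_real]; exact (Complex.abs_re_le_norm _).trans (hDC x)⟩
  have hi : Bf (fun x => (((f x).im : ℝ) : ℂ)) :=
    ⟨Complex.measurable_ofReal.comp (Complex.measurable_im.comp hf.meas), D, fun x => by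
      rw [Complex.norm_real]; exact (Complex.abs_im_le_norm _).trans (hDC x)⟩
  rw [e, h.sub hr (hi.smul _), h.smul _ hi]
  exact (hre _ (Complex.measurable_re.comp hf.meas)
      (fun x => (Complex.abs_re_le_norm _).trans (hDC x))).sub_right
    ((hre _ (Complex.measurable_im.comp hf.meas)
      (fun x => (Complex.abs_im_le_norm _).trans (hDC x))).smul_right _)

/-! ### characters -/

/-- a separating sequence of characters of a multiplicative group -/
structure Chars {G : Type*} [CommGroup G] [MeasurableSpace G] (e : ℕ → G → Sp) : Prop where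
  emb : Emb e
  mul : ∀ i x y, (e i (x * y) : ℂ) = e i x * e i y

/-- a separating sequence of characters of an additive group -/
structure AChars {N : Type*} [AddCommGroup N] [MeasurableSpace N] (e : ℕ → N → Sp) : Prop where
  emb : Emb e
  add : ∀ i x y, (e i (x + y) : ℂ) = e i x * e i y

theorem Cal.zero (h : Cal J) : J (fun _ => 0) = 0 := by
  have := h.smul 0 (Bf.const (S := S) 1)
  simpa using this

/-- multiplication in the circle -/
def smu (a b : Sp) : Sp := ⟨(a : ℂ) * b, by simp⟩

theorem emb_id : Emb (fun (i : ℕ) (y : ℕ → Sp) => y i) := MeasurableEmbedding.id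

/-- **a unitary which scales all characters is a translation** -/
theorem exists_kappa {G : Type*} [CommGroup G] [MeasurableSpace G] [MeasurableMul G]
    {e : ℕ → G → Sp} (he : Chars e) {J : (G → ℂ) → (K →L[ℂ] K)} (h : Cal J) (V : UU K)
    (c : ℕ → ℂ) (hc : ∀ i, (V : K →L[ℂ] K) * J (fun x => (e i x : ℂ)) *
      adjoint (V : K →L[ℂ] K) = c i • J (fun x => (e i x : ℂ))) :
    ∃ κ : G, ∀ f, Bf f → (V : K →L[ℂ] K) * J f * adjoint (V : K →L[ℂ] K) =
      J (fun x => f (κ * x)) := by
  rcases subsingleton_or_nontrivial K with hK | hK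
  · exact ⟨1, fun f hf => Subsingleton.elim _ _⟩
  have hmeas := MeasurableEmbedding.measurable he.emb
  -- the scalars are unimodular
  have hc1 : ∀ i, ‖c i‖ = 1 := by
    intro i
    obtain ⟨ξ, hξ⟩ := exists_ne (0 : K)
    have hu : Um (fun x => (e i x : ℂ)) := Um.circle (he.emb.meas i)
    have h1 : ‖(c i • J (fun x => (e i x : ℂ))) ξ‖ = ‖ξ‖ := by
      rw [← hc i, mul_apply_eq_comp, mul_apply_eq_comp, UU.norm_map]
      rw [show J (fun x => (e i x : ℂ)) = (h.un hu : K →L[ℂ] K) from rfl, UU.norm_map,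
        ← UU.inv_coe, UU.norm_map]
    have h2 : ‖J (fun x => (e i x : ℂ)) ξ‖ = ‖ξ‖ := by
      rw [show J (fun x => (e i x : ℂ)) = (h.un hu : K →L[ℂ] K) from rfl, UU.norm_map]
    rw [smul_apply, norm_smul, h2] at h1
    have h3 : ‖ξ‖ ≠ 0 := norm_ne_zero_iff.2 hξ
    exact (mul_eq_right₀ h3).1 h1
  let c' : ℕ → Sp := fun i => ⟨c i, by simpa using hc1 i⟩
  let T : (ℕ → Sp) → (ℕ → Sp) := fun y i => smu (c' i) (y i)
  have hT : Measurable T := by
    refine measurable_pi_lambda _ fun i => Measurable.subtype_mk ?_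
    exact measurable_const.mul (measurable_subtype_coe.comp (measurable_pi_apply i))
  have h0 : Cal (fun f : (ℕ → Sp) → ℂ => J (fun x => f (fun i => e i x))) := h.map hmeas
  have hJ1 : Cal (fun f : (ℕ → Sp) → ℂ => J (fun x => f (T (fun i => e i x)))) := h0.map hT
  have hJ2 := h0.cjUU V
  have agree := fun (f : (ℕ → Sp) → ℂ) (hf : Bf f) => Cal.ext_fam emb_id hJ1 hJ2 (fun i => by
    change J (fun x => (c i : ℂ) * (e i x : ℂ)) = _
    rw [h.smul _ (Bf.circle (he.emb.meas i))]
    exact (hc i).symm) hf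
  -- the range
  let R : Set (ℕ → Sp) := Set.range (fun x i => e i x)
  have hR : MeasurableSet R := MeasurableEmbedding.measurableSet_range he.emb
  have e1 := agree (R.indicator (fun _ => (1 : ℂ))) (Bf.ind hR)
  have e2 : J (fun x => R.indicator (fun _ => (1 : ℂ)) (fun i => e i x)) = 1 := by
    rw [← h.one]
    congr 1
    ext x
    exact Set.indicator_of_mem (Set.mem_range_self x) _
  simp only [e2, mul_one, UU.mul_adj] at e1
  have hex : ∃ x : G, T (fun i => e i x) ∈ R := by
    by_contra hcon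
    push Not at hcon
    have e3 : (fun x => R.indicator (fun _ => (1 : ℂ)) (T (fun i => e i x))) = fun _ => 0 := by
      ext x
      exact Set.indicator_of_notMem (hcon x) _
    rw [e3, h.zero] at e1
    exact zero_ne_one e1
  obtain ⟨x, y, hxy⟩ := hex
  have hk : ∀ i, (e i (y * x⁻¹) : ℂ) = c i := by
    intro i
    have h1 : (e i y : ℂ) = c i * e i x := by
      have := congrFun hxy i
      exact congrArg Subtype.val this
    have h2 : (e i (y * x⁻¹) : ℂ) * e i x = e i y := by
      rw [← he.mul, inv_mul_cancel_right]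
    have h3 : (e i x : ℂ) ≠ 0 := by
      rw [← norm_ne_zero_iff]; simp
    exact mul_right_cancel₀ h3 (h2.trans h1)
  refine ⟨y * x⁻¹, fun f hf => ?_⟩
  have hJ3 : Cal (fun f : G → ℂ => J (fun z => f (y * x⁻¹ * z))) :=
    h.map (measurable_const_mul _)
  refine Cal.ext_fam he.emb (h.cjUU V) hJ3 (fun i => ?_) hf
  rw [hc i, ← h.smul _ (Bf.circle (he.emb.meas i))]
  congr 1
  ext z
  change c i * (e i z : ℂ) = (e i (y * x⁻¹ * z) : ℂ)
  rw [he.mul, hk]

end Vale.Agent.P092.H85.W
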