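import Vale.Agent.P092.H85.W2

/-!
P092, TEAM W (helper85): abstract W-step, part 3: the step (board #5805, split residues).
-/

set_option linter.all false

namespace Vale.Agent.P092.H85.W

open MeasureTheory Filter Topology ContinuousLinearMap
open scoped InnerProductSpace ComplexConjugate

variable {K : Type*} [NormedAddCommGroup K] [InnerProductSpace ℂ K] [CompleteSpace K]

/-- operators commuting with `𝓛` and `W` -/
def MM (𝓛 : Set (UU K)) (W : Set (K →L[ℂ] K)) (T : K →L[ℂ] K) : Prop :=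
  (∀ L ∈ 𝓛, Commute (L : K →L[ℂ] K) T) ∧ ∀ w ∈ W, Commute w T

/-- one calculus on `Z × N × G`: `z` = the chambers in the middle, `x` = coordinate in the target
residue, `g` = the unit which moves it -/
structure Leg (𝓛 : Set (UU K)) (W : Set (K →L[ℂ] K)) {Z N G : Type*} [MeasurableSpace Z]
    [AddCommGroup N] [MeasurableSpace N] [CommGroup G] [MeasurableSpace G]
    [DistribMulAction G N] (J : (Z × N × G → ℂ) → (K →L[ℂ] K)) : Prop where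
  cal : Cal J
  cw : ∀ w ∈ W, ∀ f, Bf f → Commute w (J f)
  cov : ∀ L ∈ 𝓛, ∃ (τ : Z → Z) (a : Z → G) (u : Z → N), Measurable τ ∧ Measurable a ∧
    Measurable u ∧ ∀ f, Bf f → (L : K →L[ℂ] K) * J f * adjoint (L : K →L[ℂ] K) =
      J (fun s => f (τ s.1, a s.1 • s.2.1 + u s.1, a s.1 * s.2.2))

/-- `B` scales the unit by `α` and fixes everything else -/
def Sc {Z N G : Type*} [MeasurableSpace Z] [AddCommGroup N] [MeasurableSpace N] [CommGroup G]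
    [MeasurableSpace G] [DistribMulAction G N] (J : (Z × N × G → ℂ) → (K →L[ℂ] K)) (B : UU K)
    (α : G) : Prop :=
  ∀ f, Bf f → (B : K →L[ℂ] K) * J f * adjoint (B : K →L[ℂ] K) =
    J (fun s => f (s.1, s.2.1, α * s.2.2))

/-- contraction -/
def Ctr {N G : Type*} [AddCommGroup N] [CommGroup G] [DistribMulAction G N] (p : ℕ → N → Sp)
    (α : ℕ → G) : Prop :=
  ∀ i y, Tendsto (fun n => (p i ((α n)⁻¹ • y) : ℂ)) atTop (𝓝 1)

/-- the torus of an apartment through the gallery, and the trace -/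
structure Tor (𝓛 𝒜 : Set (UU K)) (W : Set (K →L[ℂ] K)) (Ω : K) {Z N G Z' N' G' : Type*}
    [MeasurableSpace Z] [AddCommGroup N] [MeasurableSpace N] [CommGroup G] [MeasurableSpace G]
    [DistribMulAction G N] [MeasurableSpace Z'] [AddCommGroup N'] [MeasurableSpace N']
    [CommGroup G'] [MeasurableSpace G'] [DistribMulAction G' N'] (p : ℕ → N → Sp)
    (p' : ℕ → N' → Sp) (J : (Z × N × G → ℂ) → (K →L[ℂ] K))
    (J' : (Z' × N' × G' → ℂ) → (K →L[ℂ] K)) : Prop where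
  sca : ∀ B ∈ 𝒜, ∃ α β, Sc J B α ∧ Sc J' B β
  con : ∃ (B : ℕ → UU K) (α : ℕ → G) (β : ℕ → G'), (∀ n, B n ∈ 𝒜) ∧ (∀ n, Sc J (B n) (α n)) ∧
    (∀ n, Sc J' (B n) (β n)) ∧ Ctr p α ∧ Ctr p' β
  sc : ∀ T, MM 𝓛 W T → (∀ B ∈ 𝒜, Commute (B : K →L[ℂ] K) T) → ∃ c : ℂ, T = c • 1
  tv : ∀ B ∈ 𝒜, ∀ T, MM 𝓛 W T →
    ⟪((B⁻¹ : UU K) : K →L[ℂ] K) Ω, T (((B⁻¹ : UU K) : K →L[ℂ] K) Ω)⟫_ℂ = ⟪Ω, T Ω⟫_ℂ

/-! ### strong convergence to one -/

def S1 (U : ℕ → UU K) : Prop := ∀ ξ, Tendsto (fun n => (U n : K →L[ℂ] K) ξ) atTop (𝓝 ξ)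

theorem S1.mul {U V : ℕ → UU K} (hU : S1 U) (hV : S1 V) : S1 (fun n => U n * V n) := by
  intro ξ
  rw [tendsto_iff_norm_sub_tendsto_zero]
  have h1 := tendsto_iff_norm_sub_tendsto_zero.1 (hU ξ)
  have h2 := tendsto_iff_norm_sub_tendsto_zero.1 (hV ξ)
  refine squeeze_zero (fun n => norm_nonneg _) (fun n => ?_) (by simpa using h2.add h1)
  have e : ((U n * V n : UU K) : K →L[ℂ] K) ξ - ξ
      = (U n : K →L[ℂ] K) ((V n : K →L[ℂ] K) ξ - ξ) + ((U n : K →L[ℂ] K) ξ - ξ) := by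
    rw [map_sub]
    change (U n : K →L[ℂ] K) ((V n : K →L[ℂ] K) ξ) - ξ = _
    abel
  rw [e]
  exact (norm_add_le _ _).trans (by rw [UU.norm_map])

theorem S1.inv {U : ℕ → UU K} (hU : S1 U) : S1 (fun n => (U n)⁻¹) := by
  intro ξ
  rw [tendsto_iff_norm_sub_tendsto_zero]
  have h1 := tendsto_iff_norm_sub_tendsto_zero.1 (hU ξ)
  refine h1.congr fun n => ?_
  have e : (((U n)⁻¹ : UU K) : K →L[ℂ] K) ξ - ξ
      = (((U n)⁻¹ : UU K) : K →L[ℂ] K) (ξ - (U n : K →L[ℂ] K) ξ) := by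
    rw [map_sub]
    congr 1
    rw [← mul_apply_eq_comp]
    have : (((U n)⁻¹ : UU K) : K →L[ℂ] K) * (U n : K →L[ℂ] K) = 1 := UU.adj_mul _
    rw [this]
    rfl
  rw [e, UU.norm_map, norm_sub_rev]

theorem S1.cj {U : ℕ → UU K} (hU : S1 U) (V : UU K) : S1 (fun n => V * U n * V⁻¹) := by
  intro ξ
  have h1 := ((V : K →L[ℂ] K).continuous.tendsto _).comp (hU (((V⁻¹ : UU K) : K →L[ℂ] K) ξ))
  have e : (V : K →L[ℂ] K) (((V⁻¹ : UU K) : K →L[ℂ] K) ξ) = ξ := by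
    rw [← mul_apply_eq_comp]
    have : (V : K →L[ℂ] K) * ((V⁻¹ : UU K) : K →L[ℂ] K) = 1 := UU.mul_adj _
    rw [this]
    rfl
  rw [e] at h1
  exact h1

/-! ### the trace argument -/

section

variable {𝓛 𝒜 : Set (UU K)} {W : Set (K →L[ℂ] K)} {Ω : K}

theorem MM.adj (hW : ∀ w ∈ W, adjoint w ∈ W) {T : K →L[ℂ] K} (h : MM 𝓛 W T) :
    MM 𝓛 W (adjoint T) := by
  constructor
  · intro L hL
    have h1 := h.1 L hL
    have h2 : adjoint (L : K →L[ℂ] K) * adjoint T = adjoint T * adjoint (L : K →L[ℂ] K) := by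
      have := congrArg (fun X : K →L[ℂ] K => star X) h1.eq
      simp only [star_mul] at this
      exact this.symm
    change (L : K →L[ℂ] K) * adjoint T = adjoint T * L
    calc (L : K →L[ℂ] K) * adjoint T = L * (adjoint T * adjoint (L : K →L[ℂ] K)) * L := by
          rw [mul_assoc, mul_assoc, UU.adj_mul, mul_one]
      _ = L * (adjoint (L : K →L[ℂ] K) * adjoint T) * L := by rw [h2]
      _ = adjoint T * L := by rw [← mul_assoc (L : K →L[ℂ] K), UU.mul_adj, one_mul]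
  · intro w hw
    have h1 := h.2 _ (hW w hw)
    have := congrArg (fun X : K →L[ℂ] K => star X) h1.eq
    simp only [star_mul] at this
    have e : star (adjoint w) = w := star_star w
    rw [e] at this
    exact this.symm

theorem MM.mul {T T' : K →L[ℂ] K} (h : MM 𝓛 W T) (h' : MM 𝓛 W T') : MM 𝓛 W (T * T') :=
  ⟨fun L hL => (h.1 L hL).mul_right (h'.1 L hL), fun w hw => (h.2 w hw).mul_right (h'.2 w hw)⟩

theorem MM.sub {T T' : K →L[ℂ] K} (h : MM 𝓛 W T) (h' : MM 𝓛 W T') : MM 𝓛 W (T - T') :=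
  ⟨fun L hL => (h.1 L hL).sub_right (h'.1 L hL), fun w hw => (h.2 w hw).sub_right (h'.2 w hw)⟩

theorem MM.one : MM 𝓛 W (1 : K →L[ℂ] K) :=
  ⟨fun L hL => Commute.one_right _, fun w hw => Commute.one_right _⟩

/-- a unitary in `MM` which is contracted to `1` by `𝒜` is `1` -/
theorem trace_lim (hW : ∀ w ∈ W, adjoint w ∈ W) (sep : ∀ T, MM 𝓛 W T → T Ω = 0 → T = 0)
    (tv : ∀ B ∈ 𝒜, ∀ T, MM 𝓛 W T →
      ⟪((B⁻¹ : UU K) : K →L[ℂ] K) Ω, T (((B⁻¹ : UU K) : K →L[ℂ] K) Ω)⟫_ℂ = ⟪Ω, T Ω⟫_ℂ)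
    {G : UU K} (hG : MM 𝓛 W (G : K →L[ℂ] K)) {B : ℕ → UU K} (hB : ∀ n, B n ∈ 𝒜)
    (hl : S1 (fun n => B n * G * (B n)⁻¹)) : G = 1 := by
  have hT : MM 𝓛 W ((G : K →L[ℂ] K) - 1) := hG.sub MM.one
  have hTT := (hT.adj hW).mul hT
  have key : ∀ n, ‖((G : K →L[ℂ] K) - 1) Ω‖ = ‖((B n * G * (B n)⁻¹ : UU K) : K →L[ℂ] K) Ω - Ω‖ := by
    intro n
    have h1 := tv (B n) (hB n) _ hTT
    simp only [mul_apply_eq_comp] at h1
    rw [ContinuousLinearMap.adjoint_inner_right, ContinuousLinearMap.adjoint_inner_right,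
      inner_self_eq_norm_sq_to_K, inner_self_eq_norm_sq_to_K] at h1
    have h2 : ‖((G : K →L[ℂ] K) - 1) ((((B n)⁻¹ : UU K) : K →L[ℂ] K) Ω)‖ ^ 2
        = ‖((G : K →L[ℂ] K) - 1) Ω‖ ^ 2 := by exact_mod_cast h1
    have h3 := (sq_eq_sq₀ (norm_nonneg _) (norm_nonneg _)).1 h2
    rw [← h3]
    have e : ((B n * G * (B n)⁻¹ : UU K) : K →L[ℂ] K) Ω - Ω
        = (B n : K →L[ℂ] K) (((G : K →L[ℂ] K) - 1) ((((B n)⁻¹ : UU K) : K →L[ℂ] K) Ω)) := by
      have e1 : (B n : K →L[ℂ] K) ((((B n)⁻¹ : UU K) : K →L[ℂ] K) Ω) = Ω := by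
        rw [← mul_apply_eq_comp]
        have : (B n : K →L[ℂ] K) * (((B n)⁻¹ : UU K) : K →L[ℂ] K) = 1 := UU.mul_adj _
        rw [this]
        rfl
      change (B n : K →L[ℂ] K) ((G : K →L[ℂ] K) ((((B n)⁻¹ : UU K) : K →L[ℂ] K) Ω)) - Ω
        = (B n : K →L[ℂ] K) ((G : K →L[ℂ] K) ((((B n)⁻¹ : UU K) : K →L[ℂ] K) Ω)
          - (((B n)⁻¹ : UU K) : K →L[ℂ] K) Ω)
      rw [map_sub, e1]
    rw [e, UU.norm_map]
  have h0 : ‖((G : K →L[ℂ] K) - 1) Ω‖ = 0 := by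
    have h1 := tendsto_iff_norm_sub_tendsto_zero.1 (hl Ω)
    have h2 : Tendsto (fun _ : ℕ => ‖((G : K →L[ℂ] K) - 1) Ω‖) atTop (𝓝 0) :=
      h1.congr fun n => (key n).symm
    exact tendsto_nhds_unique tendsto_const_nhds h2
  have h1 := sep _ hT (norm_eq_zero.1 h0)
  exact Subtype.ext (sub_eq_zero.1 h1)

end

end Vale.Agent.P092.H85.W
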