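import Vale.Agent.P092.H85.W3

/-!
P092, TEAM W (helper85): abstract W-step, part 4: (1) and (2) of board #5805.
-/

set_option linter.all false

namespace Vale.Agent.P092.H85.W

open MeasureTheory Filter Topology ContinuousLinearMap
open scoped InnerProductSpace ComplexConjugate

/-! ### two identities in a group -/

theorem grp1 {Γ : Type*} [Group Γ] {L V P1 P2 z c1 c2 : Γ} (hV : L * V * L⁻¹ = z * V)
    (h1 : L * P1 * L⁻¹ = P1 * c1) (h2 : L * P2 * L⁻¹ = P2 * c2) (hc : V * c1 * V⁻¹ = c2)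
    (zV : Commute z V) (zP : Commute z P1) (zc : Commute z c2) :
    L * (V * P1 * V⁻¹ * P2⁻¹) * L⁻¹ = V * P1 * V⁻¹ * P2⁻¹ := by
  have hX : Commute z (V * P1 * V⁻¹) := (zV.mul_right zP).mul_right zV.inv_right
  calc L * (V * P1 * V⁻¹ * P2⁻¹) * L⁻¹
      = (L * V * L⁻¹) * (L * P1 * L⁻¹) * (L * V * L⁻¹)⁻¹ * (L * P2 * L⁻¹)⁻¹ := by group
    _ = (z * V) * (P1 * c1) * (z * V)⁻¹ * (P2 * c2)⁻¹ := by rw [hV, h1, h2]
    _ = (z * (V * P1 * V⁻¹)) * ((V * c1 * V⁻¹) * z⁻¹ * c2⁻¹) * P2⁻¹ := by group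
    _ = ((V * P1 * V⁻¹) * z) * (z⁻¹ * c2 * c2⁻¹) * P2⁻¹ := by
        rw [hc, hX.eq, (zc.inv_left.eq).symm]
    _ = V * P1 * V⁻¹ * P2⁻¹ := by group

theorem grp2 {Γ : Type*} [Group Γ] {L P Q c d : Γ} (hP : L * P * L⁻¹ = c * P)
    (hQ : L * Q * L⁻¹ = d * Q) (cP : Commute c P) (cQ : Commute c Q) (cd : Commute c d)
    (dP : Commute d P) (dQ : Commute d Q) :
    L * (P * Q * P⁻¹ * Q⁻¹) * L⁻¹ = P * Q * P⁻¹ * Q⁻¹ := by
  have e1 : Commute c (P * (d * Q) * P⁻¹) := (cP.mul_right (cd.mul_right cQ)).mul_right cP.inv_right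
  have e2 : Commute d (P * Q * P⁻¹) := (dP.mul_right dQ).mul_right dP.inv_right
  calc L * (P * Q * P⁻¹ * Q⁻¹) * L⁻¹
      = (L * P * L⁻¹) * (L * Q * L⁻¹) * (L * P * L⁻¹)⁻¹ * (L * Q * L⁻¹)⁻¹ := by group
    _ = (c * P) * (d * Q) * (c * P)⁻¹ * (d * Q)⁻¹ := by rw [hP, hQ]
    _ = c * (P * (d * Q) * P⁻¹) * c⁻¹ * (Q⁻¹ * d⁻¹) := by group
    _ = (P * d) * Q * P⁻¹ * (Q⁻¹ * d⁻¹) := by rw [e1.eq]; group
    _ = d * (P * Q * P⁻¹) * Q⁻¹ * d⁻¹ := by rw [← dP.eq]; group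
    _ = (P * Q * P⁻¹) * (d * Q⁻¹) * d⁻¹ := by rw [e2.eq]; group
    _ = P * Q * P⁻¹ * Q⁻¹ := by rw [(dQ.inv_right).eq]; group

variable {K : Type*} [NormedAddCommGroup K] [InnerProductSpace ℂ K] [CompleteSpace K]

theorem UU.comm_inv {w : K →L[ℂ] K} {U : UU K} (h : Commute w (U : K →L[ℂ] K)) :
    Commute w ((U⁻¹ : UU K) : K →L[ℂ] K) := by
  have h1 : ((U⁻¹ : UU K) : K →L[ℂ] K) * (U : K →L[ℂ] K) = 1 := UU.adj_mul U
  have h2 : (U : K →L[ℂ] K) * ((U⁻¹ : UU K) : K →L[ℂ] K) = 1 := UU.mul_adj U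
  calc w * ((U⁻¹ : UU K) : K →L[ℂ] K)
      = (((U⁻¹ : UU K) : K →L[ℂ] K) * (U : K →L[ℂ] K)) * w * ((U⁻¹ : UU K) : K →L[ℂ] K) := by
        rw [h1, one_mul]
    _ = ((U⁻¹ : UU K) : K →L[ℂ] K) * (w * (U : K →L[ℂ] K)) * ((U⁻¹ : UU K) : K →L[ℂ] K) := by
        rw [h.eq]; simp only [mul_assoc]
    _ = ((U⁻¹ : UU K) : K →L[ℂ] K) * w := by
        rw [mul_assoc, mul_assoc w, h2, mul_one]

theorem UU.comm_coe {U V : UU K} (h : Commute (U : K →L[ℂ] K) (V : K →L[ℂ] K)) : Commute U V :=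
  Subtype.ext h.eq

theorem UU.coe_comm {U V : UU K} (h : Commute U V) : Commute (U : K →L[ℂ] K) (V : K →L[ℂ] K) :=
  congrArg Subtype.val h.eq

theorem UU.comm_of_conj {L G : UU K} (h : L * G * L⁻¹ = G) :
    Commute (L : K →L[ℂ] K) (G : K →L[ℂ] K) :=
  UU.coe_comm (mul_inv_eq_iff_eq_mul.1 h)

theorem Um.const {S : Type*} [MeasurableSpace S] (e : Sp) : Um (fun _ : S => (e : ℂ)) :=
  ⟨measurable_const, fun _ => by simp⟩

theorem Um.mul {S : Type*} [MeasurableSpace S] {f g : S → ℂ} (hf : Um f) (hg : Um g) :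
    Um (fun x => f x * g x) :=
  ⟨hf.meas.mul hg.meas, fun x => by rw [norm_mul, hf.one, hg.one, one_mul]⟩

theorem Cal.un_mul {S : Type*} [MeasurableSpace S] {J : (S → ℂ) → (K →L[ℂ] K)} (h : Cal J)
    {f g : S → ℂ} (hf : Um f) (hg : Um g) : h.un (hf.mul hg) = h.un hf * h.un hg :=
  Subtype.ext (h.mul f g hf.bf hg.bf)

theorem Cal.un_const {S : Type*} [MeasurableSpace S] {J : (S → ℂ) → (K →L[ℂ] K)} (h : Cal J)
    (e : Sp) (T : K →L[ℂ] K) : Commute ((h.un (Um.const (S := S) e) : UU K) : K →L[ℂ] K) T := by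
  have h1 : ((h.un (Um.const (S := S) e) : UU K) : K →L[ℂ] K) = (e : ℂ) • 1 := by
    rw [Cal.un_coe, ← h.one, ← h.smul _ (Bf.const 1)]
    congr 1
    ext x
    rw [mul_one]
  rw [h1]
  exact (Commute.one_left T).smul_left _

variable {Z N G Z' N' G' : Type*}
    [MeasurableSpace Z] [AddCommGroup N] [MeasurableSpace N] [CommGroup G] [MeasurableSpace G]
    [DistribMulAction G N] [MeasurableSpace Z'] [AddCommGroup N'] [MeasurableSpace N']
    [CommGroup G'] [MeasurableSpace G'] [DistribMulAction G' N']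
    [MeasurableMul₂ G] [MeasurableInv G] [MeasurableSMul₂ G N] [MeasurableAdd₂ N]
    [MeasurableMul₂ G'] [MeasurableInv G'] [MeasurableSMul₂ G' N'] [MeasurableAdd₂ N']
    {J : (Z × N × G → ℂ) → (K →L[ℂ] K)} {J' : (Z' × N' × G' → ℂ) → (K →L[ℂ] K)}
    {𝓛 𝒜 : Set (UU K)} {W : Set (K →L[ℂ] K)} {Ω : K}

/-- the unitary `χ (g)` -/
noncomputable def dd (h : Cal J) {e : ℕ → G → Sp} (he : Chars e) (i : ℕ) : UU K :=
  h.un (f := fun s => (e i s.2.2 : ℂ))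
    (Um.circle ((he.emb.meas i).comp (measurable_snd.comp measurable_snd)))

/-- functions of `z` commute with the other leg -/
def ZC (J : (Z × N × G → ℂ) → (K →L[ℂ] K)) (J' : (Z' × N' × G' → ℂ) → (K →L[ℂ] K)) : Prop :=
  ∀ (f : Z → ℂ) (g : Z' × N' × G' → ℂ), Bf f → Bf g → Commute (J (fun s => f s.1)) (J' g)

theorem ms1 : Measurable (fun s : Z × N × G => s.1) := measurable_fst
theorem ms2 : Measurable (fun s : Z × N × G => s.2.1) := measurable_fst.comp measurable_snd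
theorem ms3 : Measurable (fun s : Z × N × G => s.2.2) := measurable_snd.comp measurable_snd

/-- conjugation by `L ∈ 𝓛` multiplies `χ (g)` by a function of `z` -/
theorem Leg.dd_cov (h : Leg 𝓛 W J) {e : ℕ → G → Sp} (he : Chars e) (i : ℕ) {L : UU K}
    (hL : L ∈ 𝓛) : ∃ f : Z → ℂ, ∃ hf : Um f,
      L * dd h.cal he i * L⁻¹ = h.cal.un (hf.comp ms1) * dd h.cal he i := by
  obtain ⟨τ, a, u, hτ, ha, hu, hc⟩ := h.cov L hL
  have hf : Um (fun z => (e i (a z) : ℂ)) := Um.circle ((he.emb.meas i).comp ha)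
  refine ⟨_, hf, ?_⟩
  rw [dd, ← Cal.un_mul]
  refine Subtype.ext ?_
  change (L : K →L[ℂ] K) * J _ * adjoint (L : K →L[ℂ] K) = J _
  refine (hc (fun s => (e i s.2.2 : ℂ)) (Bf.circle ((he.emb.meas i).comp ms3))).trans ?_
  congr 1
  ext s
  exact he.mul i _ _

/-- a torus element multiplies `χ (g)` by a scalar -/
theorem dd_sc (h : Cal J) {e : ℕ → G → Sp} (he : Chars e) (i : ℕ) {B : UU K} {α : G}
    (hB : Sc J B α) : B * dd h he i * B⁻¹ = h.un (Um.const (e i α)) * dd h he i := by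
  rw [dd, ← Cal.un_mul]
  refine Subtype.ext ?_
  change (B : K →L[ℂ] K) * J _ * adjoint (B : K →L[ℂ] K) = J _
  refine (hB (fun s => (e i s.2.2 : ℂ)) (Bf.circle ((he.emb.meas i).comp ms3))).trans ?_
  congr 1
  ext s
  exact he.mul i _ _

theorem Leg.mm_un (h : Leg 𝓛 W J) {f : Z × N × G → ℂ} (hf : Um f) {w : K →L[ℂ] K} (hw : w ∈ W) :
    Commute w (h.cal.un hf : K →L[ℂ] K) := h.cw w hw f hf.bf

/-- **(1)**: the unitaries `χ (g)` and `χ' (g')` commute up to a scalar -/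
theorem one_scalar (h : Leg 𝓛 W J) (h' : Leg 𝓛 W J') (z1 : ZC J J') (z2 : ZC J' J)
    {p : ℕ → N → Sp} {p' : ℕ → N' → Sp} (ht : Tor 𝓛 𝒜 W Ω p p' J J')
    {e : ℕ → G → Sp} (he : Chars e) {e' : ℕ → G' → Sp} (he' : Chars e') (i j : ℕ) :
    ∃ c : ℂ, (dd h'.cal he' j : K →L[ℂ] K) * (dd h.cal he i : K →L[ℂ] K) *
      adjoint (dd h'.cal he' j : K →L[ℂ] K) = c • (dd h.cal he i : K →L[ℂ] K) := by
  set V := dd h'.cal he' j with hV
  set D := dd h.cal he i with hD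
  have hMM : MM 𝓛 W ((V * D * V⁻¹ * D⁻¹ : UU K) : K →L[ℂ] K) := by
    constructor
    · intro L hL
      obtain ⟨f, hf, e1⟩ := h.dd_cov he i hL
      obtain ⟨f', hf', e2⟩ := h'.dd_cov he' j hL
      have a1 : ∀ g : Z × N × G → ℂ, ∀ hg : Um g, Commute (h.cal.un (hf.comp ms1)) (h.cal.un hg) :=
        fun g hg => UU.comm_coe (h.cal.comm (hf.comp ms1).bf hg.bf)
      have a2 : ∀ g : Z' × N' × G' → ℂ, ∀ hg : Um g,
          Commute (h.cal.un (hf.comp ms1)) (h'.cal.un hg) :=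
        fun g hg => UU.comm_coe (z1 f g hf.bf hg.bf)
      have b1 : ∀ g : Z × N × G → ℂ, ∀ hg : Um g,
          Commute (h'.cal.un (hf'.comp ms1)) (h.cal.un hg) :=
        fun g hg => UU.comm_coe (z2 f' g hf'.bf hg.bf)
      have b2 : ∀ g : Z' × N' × G' → ℂ, ∀ hg : Um g,
          Commute (h'.cal.un (hf'.comp ms1)) (h'.cal.un hg) :=
        fun g hg => UU.comm_coe (h'.cal.comm (hf'.comp ms1).bf hg.bf)
      exact UU.comm_of_conj (grp2 e2 e1 (b2 _ _) (b1 _ _) (b1 _ _) (a2 _ _) (a1 _ _))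
    · intro w hw
      have c1 : Commute w (V : K →L[ℂ] K) := h'.mm_un _ hw
      have c2 : Commute w (D : K →L[ℂ] K) := h.mm_un _ hw
      exact ((c1.mul_right c2).mul_right (UU.comm_inv c1)).mul_right (UU.comm_inv c2)
  obtain ⟨c, hc⟩ := ht.sc _ hMM (fun B hB => by
    obtain ⟨α, β, s1, s2⟩ := ht.sca B hB
    exact UU.comm_of_conj (grp2 (dd_sc h'.cal he' j s2) (dd_sc h.cal he i s1)
      (UU.comm_coe (Cal.un_const _ _ _)) (UU.comm_coe (Cal.un_const _ _ _))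
      (UU.comm_coe (Cal.un_const _ _ _)) (UU.comm_coe (Cal.un_const _ _ _))
      (UU.comm_coe (Cal.un_const _ _ _))))
  refine ⟨c, ?_⟩
  have e1 : ((V * D * V⁻¹ * D⁻¹ : UU K) : K →L[ℂ] K) * (D : K →L[ℂ] K)
      = (V : K →L[ℂ] K) * (D : K →L[ℂ] K) * adjoint (V : K →L[ℂ] K) := by
    have : V * D * V⁻¹ * D⁻¹ * D = V * D * V⁻¹ := by group
    exact congrArg Subtype.val this
  rw [← e1, hc, smul_mul_assoc, one_mul]

/-- the translation on functions of `(z, g)` -/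
theorem kap (h : Cal J) (V : UU K) (hz : ∀ f : Z → ℂ, Bf f → Commute (V : K →L[ℂ] K)
      (J (fun s => f s.1))) {e : ℕ → G → Sp} (he : Chars e) (c : ℕ → ℂ)
    (hc : ∀ i, (V : K →L[ℂ] K) * (dd h he i : K →L[ℂ] K) * adjoint (V : K →L[ℂ] K)
      = c i • (dd h he i : K →L[ℂ] K)) :
    ∃ κ : G, ∀ F : Z × G → ℂ, Bf F → (V : K →L[ℂ] K) * J (fun s => F (s.1, s.2.2)) *
      adjoint (V : K →L[ℂ] K) = J (fun s => F (s.1, κ * s.2.2)) := by
  have hg : Cal (fun f : G → ℂ => J (fun s => f s.2.2)) := h.map ms3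
  obtain ⟨κ, hκ⟩ := exists_kappa he hg V c hc
  refine ⟨κ, fun F hF => ?_⟩
  have m1 : Measurable (fun s : Z × N × G => (s.1, s.2.2)) := ms1.prodMk ms3
  have m2 : Measurable (fun s : Z × N × G => (s.1, κ * s.2.2)) :=
    ms1.prodMk (ms3.const_mul κ)
  have c1 : Cal (fun F : Z × G → ℂ => J (fun s => F (s.1, s.2.2))) := h.map m1
  have c2 : Cal (fun F : Z × G → ℂ => J (fun s => F (s.1, κ * s.2.2))) := h.map m2
  refine Cal.ext_prod (c1.cjUU V) c2 (fun f hf => ?_) (fun f hf => ?_) hF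
  · exact (UU.conj_eq_iff V _ _).2 (hz f hf)
  · exact hκ f hf

end Vale.Agent.P092.H85.W
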