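import Vale.Agent.P092.H85.W4

/-!
P092, TEAM W (helper85): abstract W-step, part 5: the step.
-/

set_option linter.all false

namespace Vale.Agent.P092.H85.W

open MeasureTheory Filter Topology ContinuousLinearMap
open scoped InnerProductSpace ComplexConjugate

variable {K : Type*} [NormedAddCommGroup K] [InnerProductSpace ℂ K] [CompleteSpace K]

variable {Z N G Z' N' G' : Type*}
    [MeasurableSpace Z] [AddCommGroup N] [MeasurableSpace N] [CommGroup G] [MeasurableSpace G]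
    [DistribMulAction G N] [MeasurableSpace Z'] [AddCommGroup N'] [MeasurableSpace N']
    [CommGroup G'] [MeasurableSpace G'] [DistribMulAction G' N']
    [MeasurableMul₂ G] [MeasurableInv G] [MeasurableSMul₂ G N] [MeasurableAdd₂ N]
    [MeasurableMul₂ G'] [MeasurableInv G'] [MeasurableSMul₂ G' N'] [MeasurableAdd₂ N']
    {J : (Z × N × G → ℂ) → (K →L[ℂ] K)} {J' : (Z' × N' × G' → ℂ) → (K →L[ℂ] K)}
    {𝓛 𝒜 : Set (UU K)} {W : Set (K →L[ℂ] K)} {Ω : K}

theorem my : Measurable (fun s : Z × N × G => s.2.2⁻¹ • s.2.1) := ms3.inv.smul ms2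

omit [MeasurableSpace N] [MeasurableSpace G] [MeasurableMul₂ G] [MeasurableInv G]
  [MeasurableSMul₂ G N] [MeasurableAdd₂ N] in
theorem alg1 (a g : G) (x u : N) : (a * g)⁻¹ • (a • x + u) = g⁻¹ • x + (a * g)⁻¹ • u := by
  rw [smul_add, smul_smul]
  congr 2
  group

theorem alg2 {G : Type*} [CommGroup G] (κ a g : G) : κ * (a * (κ * g))⁻¹ = (a * g)⁻¹ := by
  rw [mul_left_comm a κ g, mul_inv, mul_inv_cancel_left]

/-- the unitary `ψ (κ • g⁻¹ • x)` -/
noncomputable def pp (h : Cal J) {p : ℕ → N → Sp} (hp : AChars p) (κ : G) (i : ℕ) : UU K :=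
  h.un (f := fun s => (p i (κ • s.2.2⁻¹ • s.2.1) : ℂ))
    (Um.circle ((hp.emb.meas i).comp (my.const_smul κ)))

/-- the function `ψ (κ • (a z * g)⁻¹ • u z)` -/
theorem um_c {p : ℕ → N → Sp} (hp : AChars p) (κ : G) (i : ℕ) {a : Z → G} {u : Z → N}
    (ha : Measurable a) (hu : Measurable u) :
    Um (fun q : Z × G => (p i (κ • (a q.1 * q.2)⁻¹ • u q.1) : ℂ)) := by
  refine Um.circle ((hp.emb.meas i).comp (Measurable.const_smul ?_ κ))
  exact (((ha.comp measurable_fst).mul measurable_snd).inv).smul (hu.comp measurable_fst)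

theorem ms13 : Measurable (fun s : Z × N × G => (s.1, s.2.2)) := ms1.prodMk ms3

/-- conjugation of `ψ (κ g⁻¹ x)` by `L ∈ 𝓛` -/
theorem pp_cov (h : Leg 𝓛 W J) {p : ℕ → N → Sp} (hp : AChars p) (κ : G) (i : ℕ) {L : UU K}
    {τ : Z → Z} {a : Z → G} {u : Z → N} (ha : Measurable a) (hu : Measurable u)
    (hc : ∀ f, Bf f → (L : K →L[ℂ] K) * J f * adjoint (L : K →L[ℂ] K) =
      J (fun s => f (τ s.1, a s.1 • s.2.1 + u s.1, a s.1 * s.2.2))) :
    L * pp h.cal hp κ i * L⁻¹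
      = pp h.cal hp κ i * h.cal.un ((um_c hp κ i ha hu).comp ms13) := by
  rw [pp, ← Cal.un_mul]
  refine Subtype.ext ?_
  change (L : K →L[ℂ] K) * J _ * adjoint (L : K →L[ℂ] K) = J _
  refine (hc (fun s => (p i (κ • s.2.2⁻¹ • s.2.1) : ℂ))
    (Bf.circle ((hp.emb.meas i).comp (my.const_smul κ)))).trans ?_
  congr 1
  ext s
  change (p i (κ • (a s.1 * s.2.2)⁻¹ • (a s.1 • s.2.1 + u s.1)) : ℂ) =
    (p i (κ • s.2.2⁻¹ • s.2.1) : ℂ) * (p i (κ • (a s.1 * s.2.2)⁻¹ • u s.1) : ℂ)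
  rw [alg1, smul_add, hp.add]

/-- scaling of `ψ (κ g⁻¹ x)` by a torus element -/
theorem um_s {p : ℕ → N → Sp} (hp : AChars p) (κ α : G) (i : ℕ) :
    Um (fun s : Z × N × G => (p i (κ • (α * s.2.2)⁻¹ • s.2.1) : ℂ)) := by
  refine Um.circle ((hp.emb.meas i).comp (Measurable.const_smul ?_ κ))
  exact ((ms3.const_mul α).inv).smul ms2

theorem pp_sc (h : Cal J) {p : ℕ → N → Sp} (hp : AChars p) (κ : G) (i : ℕ) {B : UU K} {α : G}
    (hB : Sc J B α) : B * pp h hp κ i * B⁻¹ = h.un (um_s hp κ α i) := by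
  refine Subtype.ext ?_
  change (B : K →L[ℂ] K) * J _ * adjoint (B : K →L[ℂ] K) = J _
  exact hB (fun s => (p i (κ • s.2.2⁻¹ • s.2.1) : ℂ))
    (Bf.circle ((hp.emb.meas i).comp (my.const_smul κ)))

theorem pp_lim (h : Cal J) {p : ℕ → N → Sp} (hp : AChars p) (κ : G) (i : ℕ) {α : ℕ → G}
    (hα : Ctr p α) : S1 (fun n => h.un (um_s (Z := Z) hp κ (α n) i)) := by
  intro ξ
  have h1 := h.tendsto (f := fun n s => (p i (κ • (α n * s.2.2)⁻¹ • s.2.1) : ℂ))
    (g := fun _ => 1) (fun n => (um_s hp κ (α n) i).bf) (Bf.const 1) (C := 1)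
    (fun n x => ((um_s hp κ (α n) i).one x).le) (fun s => ?_) ξ
  · rw [h.one] at h1
    exact h1
  · have h2 := hα i (κ • s.2.2⁻¹ • s.2.1)
    refine h2.congr fun n => ?_
    have e : (α n)⁻¹ • κ • s.2.2⁻¹ • s.2.1 = κ • (α n * s.2.2)⁻¹ • s.2.1 := by
      rw [smul_smul, smul_smul, smul_smul, mul_inv]
      congr 1
      rw [mul_comm (α n)⁻¹ κ, mul_assoc]
    rw [e]

/-- **(2)**: the unitaries `χ' (g')` commute with the functions of `(z, x)` -/
theorem two (hW : ∀ w ∈ W, adjoint w ∈ W) (sep : ∀ T, MM 𝓛 W T → T Ω = 0 → T = 0)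
    (h : Leg 𝓛 W J) (h' : Leg 𝓛 W J') (z1 : ZC J J') (z2 : ZC J' J)
    {p : ℕ → N → Sp} (hp : AChars p) {p' : ℕ → N' → Sp} (ht : Tor 𝓛 𝒜 W Ω p p' J J')
    {e : ℕ → G → Sp} (he : Chars e) {e' : ℕ → G' → Sp} (he' : Chars e') (j : ℕ)
    {f : Z × N → ℂ} (hf : Bf f) :
    Commute (dd h'.cal he' j : K →L[ℂ] K) (J (fun s => f (s.1, s.2.1))) := by
  set V := dd h'.cal he' j with hV
  have hmeas' : Um (fun s : Z' × N' × G' => (e' j s.2.2 : ℂ)) :=
    Um.circle ((he'.emb.meas j).comp (measurable_snd.comp measurable_snd))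
  have hz : ∀ f : Z → ℂ, Bf f → Commute (V : K →L[ℂ] K) (J (fun s => f s.1)) :=
    fun f hf => (z1 f _ hf hmeas'.bf).symm
  choose c hc using fun i => one_scalar h h' z1 z2 ht he he' i j
  obtain ⟨κ, hκ⟩ := kap h.cal V hz he c hc
  -- the unitary `V P1 V⁻¹ P2⁻¹` is one
  have hG : ∀ i, V * pp h.cal hp κ i * V⁻¹ * (pp h.cal hp 1 i)⁻¹ = 1 := by
    intro i
    obtain ⟨B, α, β, hB, s1, s2, k1, k2⟩ := ht.con
    refine trace_lim hW sep ht.tv (B := B) ?_ hB ?_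
    · constructor
      · intro L hL
        obtain ⟨τ, a, u, hτ, ha, hu, hcov⟩ := h.cov L hL
        obtain ⟨f', hf', e2⟩ := h'.dd_cov he' j hL
        have b1 : ∀ g : Z × N × G → ℂ, ∀ hg : Um g,
            Commute (h'.cal.un (hf'.comp ms1)) (h.cal.un hg) :=
          fun g hg => UU.comm_coe (z2 f' g hf'.bf hg.bf)
        have b2 : ∀ g : Z' × N' × G' → ℂ, ∀ hg : Um g,
            Commute (h'.cal.un (hf'.comp ms1)) (h'.cal.un hg) :=
          fun g hg => UU.comm_coe (h'.cal.comm (hf'.comp ms1).bf hg.bf)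
        refine UU.comm_of_conj (grp1 e2 (pp_cov h hp κ i ha hu hcov) (pp_cov h hp 1 i ha hu hcov)
          ?_ (b2 _ _) (b1 _ _) (b1 _ _))
        refine Subtype.ext ?_
        refine (hκ _ (um_c hp κ i ha hu).bf).trans ?_
        change J _ = J _
        congr 1
        ext s
        change (p i (κ • (a s.1 * (κ * s.2.2))⁻¹ • u s.1) : ℂ) =
          (p i ((1 : G) • (a s.1 * s.2.2)⁻¹ • u s.1) : ℂ)
        rw [one_smul, smul_smul, alg2]
      · intro w hw
        have c1 : Commute w (V : K →L[ℂ] K) := h'.mm_un _ hw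
        have c2 : Commute w (pp h.cal hp κ i : K →L[ℂ] K) := h.mm_un _ hw
        have c3 : Commute w (pp h.cal hp 1 i : K →L[ℂ] K) := h.mm_un _ hw
        exact ((c1.mul_right c2).mul_right (UU.comm_inv c1)).mul_right (UU.comm_inv c3)
    · have hlim := ((pp_lim h.cal hp κ i k1).cj V).mul (pp_lim h.cal hp 1 i k1).inv
      intro ξ
      refine (hlim ξ).congr fun n => ?_
      have e1 := dd_sc h'.cal he' j (s2 n)
      have e2 := pp_sc h.cal hp κ i (s1 n)
      have e3 := pp_sc h.cal hp 1 i (s1 n)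
      have cs : ∀ X : UU K, Commute (h'.cal.un (Um.const (e' j (β n)))) X :=
        fun X => UU.comm_coe (Cal.un_const _ _ _)
      congr 2
      change V * h.cal.un (um_s hp κ (α n) i) * V⁻¹ * (h.cal.un (um_s hp 1 (α n) i))⁻¹ =
        B n * (V * pp h.cal hp κ i * V⁻¹ * (pp h.cal hp 1 i)⁻¹) * (B n)⁻¹
      rw [← e2, ← e3]
      set s := h'.cal.un (Um.const (S := Z' × N' × G') (e' j (β n))) with hs
      have e4 : B n * (V * pp h.cal hp κ i * V⁻¹ * (pp h.cal hp 1 i)⁻¹) * (B n)⁻¹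
          = (B n * V * (B n)⁻¹) * (B n * pp h.cal hp κ i * (B n)⁻¹) * (B n * V * (B n)⁻¹)⁻¹ *
            (B n * pp h.cal hp 1 i * (B n)⁻¹)⁻¹ := by group
      rw [e4, show B n * V * (B n)⁻¹ = s * V from e1]
      have e5 : s * V * (B n * pp h.cal hp κ i * (B n)⁻¹) * (s * V)⁻¹
          = V * (B n * pp h.cal hp κ i * (B n)⁻¹) * V⁻¹ := by
        rw [mul_inv_rev, ← mul_assoc, mul_inv_eq_iff_eq_mul, mul_assoc s, mul_assoc s]
        exact (cs _).eq
      rw [e5]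
  have hV2 : ∀ i, (V : K →L[ℂ] K) * J (fun s => (p i (κ • s.2.2⁻¹ • s.2.1) : ℂ)) *
      adjoint (V : K →L[ℂ] K) = J (fun s => (p i (s.2.2⁻¹ • s.2.1) : ℂ)) := by
    intro i
    have h1 := mul_inv_eq_one.1 (hG i)
    have h2 := congrArg Subtype.val h1
    refine Eq.trans h2 ?_
    change J (fun s => (p i ((1 : G) • s.2.2⁻¹ • s.2.1) : ℂ)) = _
    simp only [one_smul]
  -- functions of `y`
  have c3 : Cal (fun f : N → ℂ => J (fun s => f (κ • s.2.2⁻¹ • s.2.1))) :=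
    h.cal.map (my.const_smul κ)
  have c4 : Cal (fun f : N → ℂ => J (fun s => f (s.2.2⁻¹ • s.2.1))) := h.cal.map my
  have hy := fun (f : N → ℂ) (hf : Bf f) => Cal.ext_fam hp.emb (c3.cjUU V) c4 hV2 hf
  -- functions of `((z, g), y)`
  have m5 : Measurable (fun s : Z × N × G => ((s.1, s.2.2), κ • s.2.2⁻¹ • s.2.1)) :=
    ms13.prodMk (my.const_smul κ)
  have m6 : Measurable (fun s : Z × N × G => ((s.1, κ * s.2.2), s.2.2⁻¹ • s.2.1)) :=
    (ms1.prodMk (ms3.const_mul κ)).prodMk my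
  have c5 : Cal (fun F : (Z × G) × N → ℂ => J (fun s => F ((s.1, s.2.2), κ • s.2.2⁻¹ • s.2.1))) :=
    h.cal.map m5
  have c6 : Cal (fun F : (Z × G) × N → ℂ => J (fun s => F ((s.1, κ * s.2.2), s.2.2⁻¹ • s.2.1))) :=
    h.cal.map m6
  have hm : Measurable (fun q : (Z × G) × N => (q.1.1, q.1.2 • κ⁻¹ • q.2)) :=
    (measurable_fst.comp measurable_fst).prodMk
      ((measurable_snd.comp measurable_fst).smul (measurable_snd.const_smul κ⁻¹))
  have key := Cal.ext_prod (c5.cjUU V) c6 (fun f hf => hκ f hf) (fun f hf => hy f hf)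
    (hf.comp hm)
  have e1 : (fun s : Z × N × G => f (s.1, s.2.2 • κ⁻¹ • κ • s.2.2⁻¹ • s.2.1))
      = fun s => f (s.1, s.2.1) := by
    ext s
    rw [inv_smul_smul, smul_inv_smul]
  have e2 : (fun s : Z × N × G => f (s.1, (κ * s.2.2) • κ⁻¹ • s.2.2⁻¹ • s.2.1))
      = fun s => f (s.1, s.2.1) := by
    ext s
    rw [mul_comm κ s.2.2, mul_smul, smul_inv_smul, smul_inv_smul]
  simp only [e1, e2] at key
  exact (UU.conj_eq_iff V _ _).1 key

end Vale.Agent.P092.H85.W
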