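import Vale.Agent.P092.H85.W5

/-!
P092, TEAM W (helper85): abstract W-step, part 6: change of the base chamber, (3), the theorem.
-/

set_option linter.all false

namespace Vale.Agent.P092.H85.W

open MeasureTheory Filter Topology ContinuousLinearMap
open scoped InnerProductSpace ComplexConjugate

variable {K : Type*} [NormedAddCommGroup K] [InnerProductSpace ℂ K] [CompleteSpace K]

variable {Z N G Z' N' G' : Type*}
    [MeasurableSpace Z] [AddCommGroup N] [MeasurableSpace N] [CommGroup G] [MeasurableSpace G]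
    [DistribMulAction G N] [MeasurableSpace Z'] [AddCommGroup N'] [MeasurableSpace N']
    [CommGroup G'] [MeasurableSpace G'] [DistribMulAction G' N']
    [MeasurableMul₂ G] [MeasurableInv G] [MeasurableSMul₂ G N] [MeasurableAdd₂ N]
    [MeasurableMul₂ G'] [MeasurableInv G'] [MeasurableSMul₂ G' N'] [MeasurableAdd₂ N']
    {J : (Z × N × G → ℂ) → (K →L[ℂ] K)} {J' : (Z' × N' × G' → ℂ) → (K →L[ℂ] K)}
    {𝓛 𝒜 𝒜1 𝒜2 : Set (UU K)} {W : Set (K →L[ℂ] K)} {Ω : K}

/-- another base chamber in the residue: `x + ν g` instead of `x` -/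
def sh (ν : G → N) (J : (Z × N × G → ℂ) → (K →L[ℂ] K)) : (Z × N × G → ℂ) → (K →L[ℂ] K) :=
  fun f => J (fun s => f (s.1, s.2.1 + ν s.2.2, s.2.2))

theorem m_sh {ν : G → N} (hν : Measurable ν) :
    Measurable (fun s : Z × N × G => (s.1, s.2.1 + ν s.2.2, s.2.2)) :=
  ms1.prodMk ((ms2.add (hν.comp ms3)).prodMk ms3)

theorem Leg.sh (h : Leg 𝓛 W J) {ν : G → N} (hν : Measurable ν)
    (hm : ∀ a g : G, ν (a * g) = a • ν g) : Leg 𝓛 W (sh ν J) where
  cal := h.cal.map (m_sh hν)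
  cw w hw f hf := h.cw w hw _ (hf.comp (m_sh hν))
  cov L hL := by
    obtain ⟨τ, a, u, hτ, ha, hu, hc⟩ := h.cov L hL
    refine ⟨τ, a, u, hτ, ha, hu, fun f hf => ?_⟩
    refine (hc _ (hf.comp (m_sh hν))).trans ?_
    change J _ = J _
    congr 1
    ext s
    change f (τ s.1, a s.1 • s.2.1 + u s.1 + ν (a s.1 * s.2.2), a s.1 * s.2.2) =
      f (τ s.1, a s.1 • (s.2.1 + ν s.2.2) + u s.1, a s.1 * s.2.2)
    rw [hm, smul_add]
    congr 3
    abel

/-- the unitaries `χ' (g')` commute with everything -/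
theorem comm1 [MeasurableNeg N] (hW : ∀ w ∈ W, adjoint w ∈ W)
    (sep : ∀ T, MM 𝓛 W T → T Ω = 0 → T = 0)
    (h : Leg 𝓛 W J) (h' : Leg 𝓛 W J') (z1 : ZC J J') (z2 : ZC J' J)
    {p : ℕ → N → Sp} (hp : AChars p) {p' : ℕ → N' → Sp} {e : ℕ → G → Sp} (he : Chars e)
    {e' : ℕ → G' → Sp} (he' : Chars e') {ν : G → N} (hν : MeasurableEmbedding ν)
    (hm : ∀ a g : G, ν (a * g) = a • ν g) (ht : Tor 𝓛 𝒜 W Ω p p' J J')
    (ht1 : Tor 𝓛 𝒜1 W Ω p p' (sh ν J) J') (j : ℕ) {f : Z × N × G → ℂ} (hf : Bf f) :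
    Commute (dd h'.cal he' j : K →L[ℂ] K) (J f) := by
  set V := dd h'.cal he' j with hV
  have h1 : Leg 𝓛 W (sh ν J) := h.sh hν.measurable hm
  have z1' : ZC (sh ν J) J' := z1
  have z2' : ZC J' (sh ν J) := fun f g hf hg => z2 f _ hf (hg.comp (m_sh hν.measurable))
  have a1 : ∀ f : Z × N → ℂ, Bf f → Commute (V : K →L[ℂ] K) (J (fun s => f (s.1, s.2.1))) :=
    fun f hf => two hW sep h h' z1 z2 hp ht he he' j hf
  have a2 : ∀ f : Z × N → ℂ, Bf f →
      Commute (V : K →L[ℂ] K) (J (fun s => f (s.1, s.2.1 + ν s.2.2))) :=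
    fun f hf => two hW sep h1 h' z1' z2' hp ht1 he he' j hf
  -- functions of `(x, x + ν g)`
  have a3 : ∀ F : N × N → ℂ, Bf F →
      Commute (V : K →L[ℂ] K) (J (fun s => F (s.2.1, s.2.1 + ν s.2.2))) := by
    intro F hF
    exact h.cal.comm_prod ms2 (ms2.add (hν.measurable.comp ms3)) V
      (fun f hf => a1 (fun q => f q.2) (hf.comp measurable_snd))
      (fun f hf => a2 (fun q => f q.2) (hf.comp measurable_snd)) hF
  -- functions of `g`
  have a4 : ∀ f : G → ℂ, Bf f → Commute (V : K →L[ℂ] K) (J (fun s => f s.2.2)) := by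
    intro f hf
    have hext : Bf (Function.extend ν f (fun _ => 0)) := by
      refine ⟨hν.measurable_extend hf.meas measurable_const, ?_⟩
      obtain ⟨C, hC⟩ := hf.bdd
      refine ⟨max C 0, fun x => ?_⟩
      by_cases hx : ∃ g, ν g = x
      · obtain ⟨g, rfl⟩ := hx
        rw [hν.injective.extend_apply]
        exact (hC g).trans (le_max_left _ _)
      · rw [Function.extend_apply' _ _ _ hx]
        simp
    have hmm : Measurable (fun q : N × N => q.2 + -q.1) := measurable_snd.add measurable_fst.neg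
    have := a3 _ (hext.comp hmm)
    have e1 : (fun s : Z × N × G => Function.extend ν f (fun _ => 0) (s.2.1 + ν s.2.2 + -s.2.1))
        = fun s => f s.2.2 := by
      ext s
      rw [show s.2.1 + ν s.2.2 + -s.2.1 = ν s.2.2 by abel, hν.injective.extend_apply]
    simp only [e1] at this
    exact this
  have hmm : Measurable (fun q : (Z × N) × G => (q.1.1, q.1.2, q.2)) :=
    (measurable_fst.comp measurable_fst).prodMk
      ((measurable_snd.comp measurable_fst).prodMk measurable_snd)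
  exact h.cal.comm_prod (ms1.prodMk ms2) ms3 V a1 a4 (hf.comp hmm)

/-- all functions of `g'` commute with everything -/
theorem commG [MeasurableNeg N] (hW : ∀ w ∈ W, adjoint w ∈ W)
    (sep : ∀ T, MM 𝓛 W T → T Ω = 0 → T = 0)
    (h : Leg 𝓛 W J) (h' : Leg 𝓛 W J') (z1 : ZC J J') (z2 : ZC J' J)
    {p : ℕ → N → Sp} (hp : AChars p) {p' : ℕ → N' → Sp} {e : ℕ → G → Sp} (he : Chars e)
    {e' : ℕ → G' → Sp} (he' : Chars e') {ν : G → N} (hν : MeasurableEmbedding ν)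
    (hm : ∀ a g : G, ν (a * g) = a • ν g) (ht : Tor 𝓛 𝒜 W Ω p p' J J')
    (ht1 : Tor 𝓛 𝒜1 W Ω p p' (sh ν J) J') {f : Z × N × G → ℂ} (hf : Bf f)
    {f' : G' → ℂ} (hf' : Bf f') : Commute (J f) (J' (fun s => f' s.2.2)) := by
  have key : ∀ f : Z × N × G → ℂ, Um f → Commute (J' (fun s => f' s.2.2)) (J f) := by
    intro f hf
    refine Commute.symm ?_
    exact h'.cal.comm_fam he'.emb ms3 (h.cal.un hf)
      (fun j => (comm1 hW sep h h' z1 z2 hp he he' hν hm ht ht1 j hf.bf).symm) hf'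
  exact (h.cal.comm_of_um key hf).symm

theorem Tor.symm {p : ℕ → N → Sp} {p' : ℕ → N' → Sp} (h : Tor 𝓛 𝒜 W Ω p p' J J') :
    Tor 𝓛 𝒜 W Ω p' p J' J where
  sca B hB := by
    obtain ⟨α, β, h1, h2⟩ := h.sca B hB
    exact ⟨β, α, h2, h1⟩
  con := by
    obtain ⟨B, α, β, h1, h2, h3, h4, h5⟩ := h.con
    exact ⟨B, β, α, h1, h3, h2, h5, h4⟩
  sc := h.sc
  tv := h.tv

/-- conjugation, with the function of `(z, g)` on the left -/
theorem pp_cov' (h : Leg 𝓛 W J) {p : ℕ → N → Sp} (hp : AChars p) (i : ℕ) {L : UU K}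
    (hL : L ∈ 𝓛) : ∃ F : Z × G → ℂ, ∃ hF : Um F,
      L * pp h.cal hp 1 i * L⁻¹ = h.cal.un (hF.comp ms13) * pp h.cal hp 1 i := by
  obtain ⟨τ, a, u, hτ, ha, hu, hc⟩ := h.cov L hL
  refine ⟨_, um_c hp 1 i ha hu, ?_⟩
  rw [pp_cov h hp 1 i ha hu hc]
  exact UU.comm_coe (h.cal.comm (Um.bf (Um.circle ((hp.emb.meas i).comp (my.const_smul 1))))
    ((um_c hp 1 i ha hu).comp ms13).bf)

/-- **THE W-STEP (split residues), board #5805 (1)-(3)** -/
theorem wstep [MeasurableNeg N] [MeasurableNeg N'] (hW : ∀ w ∈ W, adjoint w ∈ W)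
    (sep : ∀ T, MM 𝓛 W T → T Ω = 0 → T = 0)
    (h : Leg 𝓛 W J) (h' : Leg 𝓛 W J') (z1 : ZC J J') (z2 : ZC J' J)
    {p : ℕ → N → Sp} (hp : AChars p) {p' : ℕ → N' → Sp} (hp' : AChars p')
    {e : ℕ → G → Sp} (he : Chars e) {e' : ℕ → G' → Sp} (he' : Chars e')
    {ν : G → N} (hν : MeasurableEmbedding ν) (hm : ∀ a g : G, ν (a * g) = a • ν g)
    {ν' : G' → N'} (hν' : MeasurableEmbedding ν') (hm' : ∀ a g : G', ν' (a * g) = a • ν' g)
    (ht : Tor 𝓛 𝒜 W Ω p p' J J') (ht1 : Tor 𝓛 𝒜1 W Ω p p' (sh ν J) J')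
    (ht2 : Tor 𝓛 𝒜2 W Ω p p' J (sh ν' J'))
    {f : Z × N × G → ℂ} (hf : Bf f) {f' : Z' × N' × G' → ℂ} (hf' : Bf f') :
    Commute (J f) (J' f') := by
  have a1 : ∀ (f : Z × N × G → ℂ) (f' : G' → ℂ), Bf f → Bf f' →
      Commute (J f) (J' (fun s => f' s.2.2)) :=
    fun f f' hf hf' => commG hW sep h h' z1 z2 hp he he' hν hm ht ht1 hf hf'
  have a2 : ∀ (f : G → ℂ) (f' : Z' × N' × G' → ℂ), Bf f → Bf f' →
      Commute (J (fun s => f s.2.2)) (J' f') :=
    fun f f' hf hf' => (commG hW sep h' h z2 z1 hp' he' he hν' hm' ht.symm ht2.symm hf' hf).symm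
  -- functions of `(z, g)` against everything
  have a3 : ∀ (F : Z × G → ℂ) (f' : Z' × N' × G' → ℂ), Bf F → ∀ hf' : Um f',
      Commute (h'.cal.un hf' : K →L[ℂ] K) (J (fun s => F (s.1, s.2.2))) :=
    fun F f' hF hf' => h.cal.comm_prod ms1 ms3 (h'.cal.un hf')
      (fun f hf => (z1 f f' hf hf'.bf).symm) (fun f hf => (a2 f f' hf hf'.bf).symm) hF
  have b3 : ∀ (F : Z' × G' → ℂ) (f : Z × N × G → ℂ), Bf F → ∀ hf : Um f,
      Commute (h.cal.un hf : K →L[ℂ] K) (J' (fun s => F (s.1, s.2.2))) :=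
    fun F f hF hf => h'.cal.comm_prod ms1 ms3 (h.cal.un hf)
      (fun f' hf' => (z2 f' f hf' hf.bf).symm) (fun f' hf' => a1 f f' hf.bf hf') hF
  -- the commutator of the additive unitaries
  have a4 : ∀ i j, Commute (pp h.cal hp 1 i : K →L[ℂ] K) (pp h'.cal hp' 1 j : K →L[ℂ] K) := by
    intro i j
    set P := pp h.cal hp 1 i with hP
    set Q := pp h'.cal hp' 1 j with hQ
    have hPu : Um (fun s : Z × N × G => (p i ((1 : G) • s.2.2⁻¹ • s.2.1) : ℂ)) :=
      Um.circle ((hp.emb.meas i).comp (my.const_smul 1))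
    have hQu : Um (fun s : Z' × N' × G' => (p' j ((1 : G') • s.2.2⁻¹ • s.2.1) : ℂ)) :=
      Um.circle ((hp'.emb.meas j).comp (my.const_smul 1))
    have h1 : P * Q * P⁻¹ * Q⁻¹ = 1 := by
      obtain ⟨B, α, β, hB, s1, s2, k1, k2⟩ := ht.con
      refine trace_lim hW sep ht.tv (B := B) ?_ hB ?_
      · constructor
        · intro L hL
          obtain ⟨F, hF, e1⟩ := pp_cov' h hp i hL
          obtain ⟨F', hF', e2⟩ := pp_cov' h' hp' j hL
          refine UU.comm_of_conj (grp2 e1 e2 ?_ ?_ ?_ ?_ ?_)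
          · exact UU.comm_coe (h.cal.comm (hF.comp ms13).bf hPu.bf)
          · exact UU.comm_coe (a3 F _ hF.bf hQu).symm
          · exact UU.comm_coe (b3 F' _ hF'.bf (hF.comp ms13))
          · exact UU.comm_coe (b3 F' _ hF'.bf hPu).symm
          · exact UU.comm_coe (h'.cal.comm (hF'.comp ms13).bf hQu.bf)
        · intro w hw
          have c1 : Commute w (P : K →L[ℂ] K) := h.mm_un _ hw
          have c2 : Commute w (Q : K →L[ℂ] K) := h'.mm_un _ hw
          exact ((c1.mul_right c2).mul_right (UU.comm_inv c1)).mul_right (UU.comm_inv c2)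
      · have l1 := pp_lim h.cal hp 1 i k1
        have l2 := pp_lim h'.cal hp' 1 j k2
        have hlim := ((l1.mul l2).mul l1.inv).mul l2.inv
        intro ξ
        refine (hlim ξ).congr fun n => ?_
        have e1 := pp_sc h.cal hp 1 i (s1 n)
        have e2 := pp_sc h'.cal hp' 1 j (s2 n)
        congr 2
        change h.cal.un (um_s hp 1 (α n) i) * h'.cal.un (um_s hp' 1 (β n) j) *
          (h.cal.un (um_s hp 1 (α n) i))⁻¹ * (h'.cal.un (um_s hp' 1 (β n) j))⁻¹ =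
          B n * (P * Q * P⁻¹ * Q⁻¹) * (B n)⁻¹
        rw [← e1, ← e2]
        change B n * P * (B n)⁻¹ * (B n * Q * (B n)⁻¹) * (B n * P * (B n)⁻¹)⁻¹ *
          (B n * Q * (B n)⁻¹)⁻¹ = B n * (P * Q * P⁻¹ * Q⁻¹) * (B n)⁻¹
        group
    have h2 : Commute P Q := by
      have : P * Q = Q * P := by
        have := mul_inv_eq_one.1 h1
        exact mul_inv_eq_iff_eq_mul.1 this
      exact this
    exact UU.coe_comm h2
  have cy : Cal (fun f : N → ℂ => J (fun s => f (s.2.2⁻¹ • s.2.1))) := h.cal.map my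
  have cy' : Cal (fun f : N' → ℂ => J' (fun s => f (s.2.2⁻¹ • s.2.1))) := h'.cal.map my
  have a4' : ∀ i j, Commute (J (fun s => (p i (s.2.2⁻¹ • s.2.1) : ℂ)))
      (J' (fun s => (p' j (s.2.2⁻¹ • s.2.1) : ℂ))) := by
    intro i j
    have := a4 i j
    change Commute (J (fun s => (p i ((1 : G) • s.2.2⁻¹ • s.2.1) : ℂ)))
      (J' (fun s => (p' j ((1 : G') • s.2.2⁻¹ • s.2.1) : ℂ))) at this
    simpa only [one_smul] using this
  have a5 : ∀ (f : N → ℂ) (j : ℕ), Bf f → Commute (J (fun s => f (s.2.2⁻¹ • s.2.1)))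
      (J' (fun s => (p' j (s.2.2⁻¹ • s.2.1) : ℂ))) := by
    intro f j hf
    have hQu : Um (fun s : Z' × N' × G' => (p' j (s.2.2⁻¹ • s.2.1) : ℂ)) :=
      Um.circle ((hp'.emb.meas j).comp my)
    exact (h.cal.comm_fam hp.emb my (h'.cal.un hQu) (fun i => (a4' i j).symm) hf).symm
  have a6 : ∀ (f : N → ℂ) (f' : N' → ℂ), Um f → Bf f' →
      Commute (J (fun s => f (s.2.2⁻¹ • s.2.1))) (J' (fun s => f' (s.2.2⁻¹ • s.2.1))) := by
    intro f f' hf hf'
    exact h'.cal.comm_fam hp'.emb my (h.cal.un (hf.comp my)) (fun j => a5 f j hf.bf) hf'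
  have a7 : ∀ (f : N → ℂ) (f' : N' → ℂ), Bf f → Bf f' →
      Commute (J (fun s => f (s.2.2⁻¹ • s.2.1))) (J' (fun s => f' (s.2.2⁻¹ • s.2.1))) :=
    fun f f' hf hf' => (cy.comm_of_um (fun f hf => (a6 f f' hf hf').symm) hf).symm
  -- change of variables
  have cv : ∀ f : Z × N × G → ℂ, Bf f → ∃ F : (Z × G) × N → ℂ, Bf F ∧
      f = fun s => F ((s.1, s.2.2), s.2.2⁻¹ • s.2.1) := by
    intro f hf
    refine ⟨fun q => f (q.1.1, q.1.2 • q.2, q.1.2), hf.comp ?_, ?_⟩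
    · exact (measurable_fst.comp measurable_fst).prodMk
        (((measurable_snd.comp measurable_fst).smul measurable_snd).prodMk
          (measurable_snd.comp measurable_fst))
    · ext s
      change f s = f (s.1, s.2.2 • s.2.2⁻¹ • s.2.1, s.2.2)
      rw [smul_inv_smul]
  have cv' : ∀ f : Z' × N' × G' → ℂ, Bf f → ∃ F : (Z' × G') × N' → ℂ, Bf F ∧
      f = fun s => F ((s.1, s.2.2), s.2.2⁻¹ • s.2.1) := by
    intro f hf
    refine ⟨fun q => f (q.1.1, q.1.2 • q.2, q.1.2), hf.comp ?_, ?_⟩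
    · exact (measurable_fst.comp measurable_fst).prodMk
        (((measurable_snd.comp measurable_fst).smul measurable_snd).prodMk
          (measurable_snd.comp measurable_fst))
    · ext s
      change f s = f (s.1, s.2.2 • s.2.2⁻¹ • s.2.1, s.2.2)
      rw [smul_inv_smul]
  have a8 : ∀ (f : Z × N × G → ℂ) (f' : N' → ℂ), Bf f → Um f' →
      Commute (J f) (J' (fun s => f' (s.2.2⁻¹ • s.2.1))) := by
    intro f f' hf hf'
    obtain ⟨F, hF, rfl⟩ := cv f hf
    exact (h.cal.comm_prod ms13 my (h'.cal.un (hf'.comp my))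
      (fun f hf => a3 f _ hf (hf'.comp my)) (fun f hf => (a7 f f' hf hf'.bf).symm) hF).symm
  have a9 : ∀ (f : Z × N × G → ℂ) (f' : N' → ℂ), Bf f → Bf f' →
      Commute (J f) (J' (fun s => f' (s.2.2⁻¹ • s.2.1))) :=
    fun f f' hf hf' => cy'.comm_of_um (fun f' hf' => a8 f f' hf hf') hf'
  have a10 : ∀ f : Z × N × G → ℂ, Um f → Commute (J' f') (J f) := by
    intro f hf
    obtain ⟨F, hF, rfl⟩ := cv' f' hf'
    exact (h'.cal.comm_prod ms13 my (h.cal.un hf)
      (fun f' hf' => b3 f' f hf' hf) (fun f' hf' => a9 f f' hf.bf hf') hF).symm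
  exact (h.cal.comm_of_um a10 hf).symm

end Vale.Agent.P092.H85.W
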