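import Vale.Agent.P092.H85.W6
import Vale.Agent.P092.H767.WLaw

/-!
P092, TEAM W (helper85): abstract W-step, part 7: the residue of a split panel (`N = F`,
`G = Fˣ`), characters from `IsPsi`, `IsChi` (H767/WLaw).
-/

set_option linter.all false

namespace Vale.Agent.P092.H85.W

open MeasureTheory Filter Topology ContinuousLinearMap
open scoped InnerProductSpace ComplexConjugate
open Vale.Agent.P092.H767 (IsPsi IsChi)

section field

variable {F : Type*} [NontriviallyNormedField F] [MeasurableSpace F] [BorelSpace F]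

theorem val_meas : Measurable (fun g : Fˣ => (g : F)) := comap_measurable _

theorem to_units {S : Type*} [MeasurableSpace S] {f : S → Fˣ}
    (h : Measurable (fun s => (f s : F))) : Measurable f := measurable_comap_iff.2 h

theorem val_emb : MeasurableEmbedding (fun g : Fˣ => (g : F)) where
  injective := Units.val_injective
  measurable := val_meas
  measurableSet_image' := by
    rintro s ⟨t, ht, rfl⟩
    have : (fun g : Fˣ => (g : F)) '' (Units.val ⁻¹' t) = t ∩ {0}ᶜ := by
      ext x
      constructor
      · rintro ⟨g, hg, rfl⟩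
        exact ⟨hg, g.ne_zero⟩
      · rintro ⟨hx, hx0⟩
        exact ⟨Units.mk0 x hx0, hx, rfl⟩
    rw [this]
    exact ht.inter (measurableSet_singleton (0 : F)).compl

theorem mul2_units [SecondCountableTopology F] : MeasurableMul₂ Fˣ := by
  refine ⟨to_units ?_⟩
  have : Measurable fun s : Fˣ × Fˣ => (s.1 : F) * (s.2 : F) :=
    (val_meas.comp measurable_fst).mul (val_meas.comp measurable_snd)
  exact this

theorem inv_units : MeasurableInv Fˣ := by
  refine ⟨to_units ?_⟩
  have : Measurable fun s : Fˣ => (s : F)⁻¹ := val_meas.inv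
  simpa only [Units.val_inv_eq_inv_val] using this

theorem smul2_units [SecondCountableTopology F] : MeasurableSMul₂ Fˣ F := by
  refine ⟨?_⟩
  have : Measurable fun s : Fˣ × F => (s.1 : F) * s.2 :=
    (val_meas.comp measurable_fst).mul measurable_snd
  exact this

variable [ProperSpace F]

/-- the additive characters `x ↦ ψ (d x)`, `d` in a countable dense set -/
theorem achars_of {ψ : F → ℂ} (h : IsPsi ψ) : ∃ p : ℕ → F → Sp, AChars p ∧
    ∀ α : ℕ → Fˣ, Tendsto (fun n => ‖(α n : F)‖) atTop atTop → Ctr p α := by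
  classical
  obtain ⟨d, hd⟩ := TopologicalSpace.exists_dense_seq F
  let p : ℕ → F → Sp := fun i x => ⟨ψ (d i * x), by simpa using h.nrm (d i * x)⟩
  have hpm : ∀ i, Measurable (p i) := fun i =>
    (h.cont.comp (continuous_const.mul continuous_id)).measurable.subtype_mk
  refine ⟨p, ⟨?_, ?_⟩, ?_⟩
  · refine (measurable_pi_lambda _ hpm).measurableEmbedding ?_
    intro x y hxy
    have h1 : ∀ i, ψ (d i * x) = ψ (d i * y) := fun i => congrArg Subtype.val (congrFun hxy i)
    have h2 : ∀ t : F, ψ (t * x) = ψ (t * y) := by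
      intro t
      have e : (fun t : F => ψ (t * x)) = fun t => ψ (t * y) := by
        refine hd.equalizer (h.cont.comp (continuous_id.mul continuous_const))
          (h.cont.comp (continuous_id.mul continuous_const)) ?_
        ext i
        exact h1 i
      exact congrFun e t
    by_contra hne
    obtain ⟨z, hz⟩ := h.ne
    have hne' : x - y ≠ 0 := sub_ne_zero.2 hne
    have h3 : ψ (z / (x - y) * x) = ψ (z + z / (x - y) * y) := by
      congr 1
      field_simp
      ring
    rw [h.add, ← h2] at h3
    have h4 : ψ (z / (x - y) * x) ≠ 0 := by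
      intro h5
      have := h.nrm (z / (x - y) * x)
      rw [h5, norm_zero] at this
      exact zero_ne_one this
    exact hz (mul_right_cancel₀ h4 (by rw [← h3, one_mul]))
  · intro i x y
    change ψ (d i * (x + y)) = ψ (d i * x) * ψ (d i * y)
    rw [mul_add, h.add]
  · intro α hα i y
    change Tendsto (fun n => ψ (d i * ((α n)⁻¹ • y))) atTop (𝓝 1)
    have h0 : ψ 0 = 1 := h.zero
    rw [← h0]
    refine (h.cont.tendsto 0).comp ?_
    have h1 : Tendsto (fun n => d i * ((α n : F)⁻¹ * y)) atTop (𝓝 (d i * (0 * y))) := by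
      refine Tendsto.const_mul _ (Tendsto.mul_const _ ?_)
      rw [tendsto_zero_iff_norm_tendsto_zero]
      simp only [norm_inv]
      exact hα.inv_tendsto_atTop
    rw [zero_mul, mul_zero] at h1
    refine h1.congr fun n => ?_
    rw [Units.smul_def, Units.val_inv_eq_inv_val]
    rfl

/-- the multiplicative characters -/
theorem chars_of {I : Type*} [Countable I] {χ : I → F → ℂ} (h : IsChi χ) :
    ∃ e : ℕ → Fˣ → Sp, Chars e := by
  obtain ⟨q, hq⟩ := @exists_surjective_nat I h.ne _
  let e : ℕ → Fˣ → Sp := fun i x => ⟨χ (q i) x, by simpa using h.nrm (q i) x x.ne_zero⟩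
  have hem : ∀ i, Measurable (e i) := fun i => ((h.ms (q i)).comp val_meas).subtype_mk
  haveI : StandardBorelSpace {x : F // x ≠ 0} :=
    (measurableSet_singleton (0 : F)).compl.standardBorel
  have h1 : MeasurableEmbedding (fun g : Fˣ => (⟨(g : F), g.ne_zero⟩ : {x : F // x ≠ 0})) := by
    refine ⟨fun a b hab => Units.ext (congrArg Subtype.val hab), val_meas.subtype_mk, ?_⟩
    intro s hs
    have e1 : (fun g : Fˣ => (⟨(g : F), g.ne_zero⟩ : {x : F // x ≠ 0})) '' s =
        Subtype.val ⁻¹' ((fun g : Fˣ => (g : F)) '' s) := by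
      ext x
      constructor
      · rintro ⟨g, hg, rfl⟩
        exact ⟨g, hg, rfl⟩
      · rintro ⟨g, hg, hx⟩
        exact ⟨g, hg, Subtype.ext hx⟩
    rw [e1]
    exact measurable_subtype_coe (val_emb.measurableSet_image.2 hs)
  have h2 : MeasurableEmbedding (fun (x : {x : F // x ≠ 0}) (i : ℕ) =>
      (⟨χ (q i) x, by simpa using h.nrm (q i) x x.2⟩ : Sp)) := by
    refine (measurable_pi_lambda _ fun i =>
      ((h.ms (q i)).comp measurable_subtype_coe).subtype_mk).measurableEmbedding ?_
    intro x y hxy
    refine Subtype.ext (h.sep _ _ fun j => ?_)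
    obtain ⟨i, rfl⟩ := hq j
    exact congrArg Subtype.val (congrFun hxy i)
  refine ⟨e, ⟨h2.comp h1, ?_⟩⟩
  · intro i x y
    change χ (q i) ((x * y : Fˣ) : F) = χ (q i) x * χ (q i) y
    rw [Units.val_mul, h.mul]

end field

end Vale.Agent.P092.H85.W
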